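import Mathlib

/-!
# P231, stage 3: the variation of a curve is the integral of its metric speed
-/

set_option linter.unusedVariables false

open Set Filter Topology MeasureTheory
open scoped ENNReal

namespace Vale.Agent.P231.S3U

section

variable {X : Type*} [PseudoMetricSpace X] {c : ℝ → X} {σ : ℝ → ℝ}

/-- upper bound of the variation -/
theorem var_le_integral (hσ : Continuous σ) (h0 : ∀ t, 0 ≤ σ t)
    (hlip : ∀ s t, s ≤ t → dist (c s) (c t) ≤ ∫ x in s..t, σ x) {a b : ℝ} (hab : a ≤ b) :
    eVariationOn c (Icc a b) ≤ ENNReal.ofReal (∫ x in a..b, σ x) := by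
  have hi : ∀ s t, IntervalIntegrable σ volume s t := fun s t => hσ.intervalIntegrable s t
  have hnn : ∀ s t, s ≤ t → 0 ≤ ∫ x in s..t, σ x := fun s t hst =>
    intervalIntegral.integral_nonneg hst fun x _ => h0 x
  unfold eVariationOn
  refine iSup_le fun p => ?_
  obtain ⟨n, u, hu, hmem⟩ := p
  have h1 : ∀ k : ℕ, ∑ i ∈ Finset.range k, edist (c (u (i + 1))) (c (u i)) ≤
      ENNReal.ofReal (∫ x in (u 0)..(u k), σ x) := by
    intro k
    induction k with
    | zero => simp
    | succ k ih =>
      rw [Finset.sum_range_succ, ← intervalIntegral.integral_add_adjacent_intervals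
        (hi (u 0) (u k)) (hi (u k) (u (k + 1))),
        ENNReal.ofReal_add (hnn _ _ (hu (Nat.zero_le k))) (hnn _ _ (hu k.le_succ))]
      refine add_le_add ih ?_
      rw [edist_comm, edist_dist]
      exact ENNReal.ofReal_le_ofReal (hlip _ _ (hu k.le_succ))
  refine (h1 n).trans (ENNReal.ofReal_le_ofReal ?_)
  have ha := (hmem 0).1
  have hb := (hmem n).2
  have h2 := intervalIntegral.integral_add_adjacent_intervals (hi a (u 0)) (hi (u 0) (u n))
  have h3 := intervalIntegral.integral_add_adjacent_intervals (hi a (u n)) (hi (u n) b)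
  have h4 := hnn a (u 0) ha
  have h5 := hnn (u n) b hb
  linarith

/-- additivity of the variation, in real numbers -/
theorem toReal_var_add {a x y : ℝ} (hax : a ≤ x) (hxy : x ≤ y)
    (hfin : eVariationOn c (Icc a y) ≠ ∞) :
    (eVariationOn c (Icc a y)).toReal =
      (eVariationOn c (Icc a x)).toReal + (eVariationOn c (Icc x y)).toReal := by
  have h1 := eVariationOn.Icc_add_Icc c (s := univ) hax hxy (mem_univ x)
  simp only [univ_inter] at h1
  rw [← h1] at hfin ⊢
  exact ENNReal.toReal_add (fun h => hfin (by rw [h, top_add])) (fun h => hfin (by rw [h, add_top]))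

/-- lower bound of the variation -/
theorem integral_le_var (hσ : Continuous σ) (h0 : ∀ t, 0 ≤ σ t)
    (hlip : ∀ s t, s ≤ t → dist (c s) (c t) ≤ ∫ x in s..t, σ x)
    (hlim : ∀ t, Tendsto (fun h => dist (c t) (c (t + h)) / h) (𝓝[>] 0) (𝓝 (σ t))) {a b : ℝ}
    (hab : a ≤ b) : ENNReal.ofReal (∫ x in a..b, σ x) ≤ eVariationOn c (Icc a b) := by
  have hi : ∀ s t, IntervalIntegrable σ volume s t := fun s t => hσ.intervalIntegrable s t
  have hfin : ∀ x, a ≤ x → eVariationOn c (Icc a x) ≠ ∞ := fun x hx =>
    ((var_le_integral hσ h0 hlip hx).trans_lt ENNReal.ofReal_lt_top).ne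
  set V : ℝ → ℝ := fun x => (eVariationOn c (Icc a x)).toReal with hV
  have hadd : ∀ x y, a ≤ x → x ≤ y → V y = V x + (eVariationOn c (Icc x y)).toReal := fun x y hx hy =>
    toReal_var_add hx hy (hfin y (hx.trans hy))
  have hup : ∀ x y, x ≤ y → (eVariationOn c (Icc x y)).toReal ≤ ∫ z in x..y, σ z := by
    intro x y hxy
    have h1 := ENNReal.toReal_mono ENNReal.ofReal_ne_top (var_le_integral hσ h0 hlip hxy)
    rwa [ENNReal.toReal_ofReal (intervalIntegral.integral_nonneg hxy fun z _ => h0 z)] at h1
  have hlow : ∀ x y, x ≤ y → dist (c x) (c y) ≤ (eVariationOn c (Icc x y)).toReal := by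
    intro x y hxy
    have h1 : edist (c x) (c y) ≤ eVariationOn c (Icc x y) :=
      eVariationOn.edist_le c (left_mem_Icc.2 hxy) (right_mem_Icc.2 hxy)
    have h2 : eVariationOn c (Icc x y) ≠ ∞ :=
      ((var_le_integral hσ h0 hlip hxy).trans_lt ENNReal.ofReal_lt_top).ne
    have h3 := ENNReal.toReal_mono h2 h1
    rwa [edist_dist, ENNReal.toReal_ofReal dist_nonneg] at h3
  set I : ℝ → ℝ := fun x => ∫ z in a..x, σ z with hI
  have hId : ∀ x, HasDerivAt I (σ x) x := fun x =>
    intervalIntegral.integral_hasDerivAt_right (hi a x)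
      (hσ.stronglyMeasurableAtFilter volume (𝓝 x)) hσ.continuousAt
  have hIc : Continuous I := continuous_iff_continuousAt.2 fun x => (hId x).continuousAt
  have hIadd : ∀ x y, I y = I x + ∫ z in x..y, σ z := fun x y =>
    (intervalIntegral.integral_add_adjacent_intervals (hi a x) (hi x y)).symm
  have hVc : ContinuousOn V (Icc a b) := by
    intro x hx
    have h1 : ∀ y ∈ Icc a b, dist (V y) (V x) ≤ dist (I y) (I x) := by
      intro y hy
      rw [Real.dist_eq, Real.dist_eq]
      rcases le_total x y with h | h
      · have e1 := hadd x y hx.1 h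
        have e2 := hIadd x y
        have e3 := hup x y h
        have e4 : 0 ≤ (eVariationOn c (Icc x y)).toReal := ENNReal.toReal_nonneg
        rw [abs_of_nonneg (by linarith), abs_of_nonneg (by linarith)]
        linarith
      · have e1 := hadd y x hy.1 h
        have e2 := hIadd y x
        have e3 := hup y x h
        have e4 : 0 ≤ (eVariationOn c (Icc y x)).toReal := ENNReal.toReal_nonneg
        rw [abs_of_nonpos (by linarith), abs_of_nonpos (by linarith)]
        linarith
    rw [ContinuousWithinAt, tendsto_iff_dist_tendsto_zero]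
    have h2 : Tendsto (fun y => dist (I y) (I x)) (𝓝[Icc a b] x) (𝓝 0) :=
      (tendsto_iff_dist_tendsto_zero.1 hIc.continuousAt.tendsto).mono_left nhdsWithin_le_nhds
    exact squeeze_zero' (Eventually.of_forall fun _ => dist_nonneg)
      (eventually_nhdsWithin_of_forall h1) h2
  have key : ∀ ε : ℝ, 0 < ε → -V b ≤ -I b + ε * (b - a) := by
    intro ε hε
    refine image_le_of_liminf_slope_right_lt_deriv_boundary' (f := fun x => -V x)
      (f' := fun x => -σ x) (B := fun x => -I x + ε * (x - a)) (B' := fun x => -σ x + ε)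
      (a := a) (b := b) hVc.neg ?_ ?_ ?_ ?_ ?_ (right_mem_Icc.2 hab)
    · intro x hx r hr
      have h1 : ∀ᶠ h in 𝓝[>] (0 : ℝ), -r < dist (c x) (c (x + h)) / h :=
        (hlim x).eventually (lt_mem_nhds (by linarith))
      have h2 : ∀ᶠ h in 𝓝[>] (0 : ℝ), slope (fun x => -V x) x (x + h) < r := by
        filter_upwards [h1, self_mem_nhdsWithin] with h hh hpos
        have hpos' : (0 : ℝ) < h := hpos
        have e1 := hadd x (x + h) hx.1 (by linarith)
        have e2 := hlow x (x + h) (by linarith)
        rw [slope_def_field, add_sub_cancel_left, e1, div_lt_iff₀ hpos']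
        rw [lt_div_iff₀ hpos'] at hh
        linarith
      have h3 : Tendsto (fun z : ℝ => z - x) (𝓝[>] x) (𝓝[>] 0) := by
        refine tendsto_nhdsWithin_iff.2 ⟨?_, ?_⟩
        · have : Tendsto (fun z : ℝ => z - x) (𝓝 x) (𝓝 (x - x)) :=
            (continuous_id.sub continuous_const).tendsto x
          rw [sub_self] at this
          exact this.mono_left nhdsWithin_le_nhds
        · filter_upwards [self_mem_nhdsWithin] with z hz
          exact sub_pos.2 (show x < z from hz)
      have h4 : ∀ᶠ z in 𝓝[>] x, slope (fun x => -V x) x z < r := by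
        filter_upwards [h3.eventually h2] with z hz
        rwa [add_sub_cancel] at hz
      exact h4.frequently
    · have e1 : V a = 0 := by
        rw [hV]
        simp
      have e2 : I a = 0 := by rw [hI]; simp
      simp only [e1, e2]
      simp
    · exact (hIc.neg.add (continuous_const.mul (continuous_id.sub continuous_const))).continuousOn
    · intro x _
      have h1 : HasDerivAt (fun x => -I x + ε * (x - a)) (-σ x + ε * 1) x :=
        (hId x).neg.add (((hasDerivAt_id x).sub_const a).const_mul ε)
      rw [mul_one] at h1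
      exact h1.hasDerivWithinAt
    · intro x _ _
      linarith
  have hle : I b ≤ V b := by
    refine le_of_forall_pos_le_add fun δ hδ => ?_
    rcases eq_or_lt_of_le hab with h | h
    · have := key 1 one_pos
      rw [← h] at this ⊢
      linarith
    · have h1 := key (δ / (b - a)) (div_pos hδ (by linarith))
      rw [div_mul_cancel₀ _ (by linarith : b - a ≠ 0)] at h1
      linarith
  rw [ENNReal.ofReal_le_iff_le_toReal (hfin b hab)]
  exact hle

end

end Vale.Agent.P231.S3U
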