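import Vale.Agent.P231.WC.Vel
import Vale.Agent.P231.S3U.VarInt
import Vale.Agent.P231.H766.Var
import Vale.Agent.P231.WF.UecUT

/-!
# P231, stage 3, (U4), part 1: the speed of a smooth curve and its variation
-/

set_option maxSynthPendingDepth 3
set_option linter.unusedSectionVars false
set_option linter.unusedVariables false

open Bundle Manifold Set Filter Module MeasureTheory
open scoped ContDiff Manifold Topology ENNReal

namespace Vale.Agent.P231.S3U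

noncomputable section

open Vale.Agent.P234 Vale.Agent.P231 Vale.Agent.P231.H775 Vale.Agent.P231.Fm Vale.Agent.P231.W
open Vale.Agent.P231.WD3

/-- the speed of a curve -/
def sp (E : Type*) [NormedAddCommGroup E] [NormedSpace ℝ E] {M : Type*} [MetricSpace M]
    [ChartedSpace E M] [RiemannianBundle (fun x : M => TangentSpace 𝓘(ℝ, E) x)]
    (c : ℝ → M) (t : ℝ) : ℝ := nm (c t) (WC.vl c t : E)

variable {E : Type*} [NormedAddCommGroup E] [NormedSpace ℝ E] [FiniteDimensional ℝ E]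
  {M : Type*} [MetricSpace M] [ChartedSpace E M] [IsManifold 𝓘(ℝ, E) ∞ M]
  [RiemannianBundle (fun x : M => TangentSpace 𝓘(ℝ, E) x)]
  [IsContMDiffRiemannianBundle 𝓘(ℝ, E) ∞ E (fun x : M => TangentSpace 𝓘(ℝ, E) x)]
  {e : ∀ x : M, TangentSpace 𝓘(ℝ, E) x → M}
  [CompactSpace M] [ConnectedSpace M] [IsRiemannianManifold 𝓘(ℝ, E) M]

theorem sp_nonneg (c : ℝ → M) (t : ℝ) : 0 ≤ sp E c t := nm_nonneg _ _

/-- a smooth map as a vector field along a constant map -/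
theorem smV_const (p : M) {V : Type*} [NormedAddCommGroup V] [NormedSpace ℝ V] {ξ : V → E} {s : V}
    (hξ : ContDiffAt ℝ ∞ ξ s) : SmV (fun _ : V => p) (fun s => (ξ s : E)) s := by
  refine (smV_iff (f := fun _ : V => p) (u := fun s => (ξ s : E)) (s := s) p
    (mem_extChartAt_source (I := 𝓘(ℝ, E)) p)).2 ⟨contMDiffAt_const, ?_⟩
  let A : E →ₗ[ℝ] E := ((crd p p : TangentSpace 𝓘(ℝ, E) p →L[ℝ] E) :
    TangentSpace 𝓘(ℝ, E) p →ₗ[ℝ] E)
  have h1 : ContDiff ℝ ∞ fun w : E => A w := (LinearMap.toContinuousLinearMap A).contDiff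
  exact h1.contDiffAt.comp s hξ

/-- a vector field along a constant map is a smooth map -/
theorem contDiffAt_of_smV (p : M) {V : Type*} [NormedAddCommGroup V] [NormedSpace ℝ V] {ξ : V → E}
    {s : V} (h : SmV (fun _ : V => p) (fun s => (ξ s : E)) s) : ContDiffAt ℝ ∞ ξ s := by
  have h1 := ((smV_iff p (mem_extChartAt_source (I := 𝓘(ℝ, E)) p)).1 h).2
  let A : E →ₗ[ℝ] E := ((vec p p : E →L[ℝ] TangentSpace 𝓘(ℝ, E) p) :
    E →ₗ[ℝ] TangentSpace 𝓘(ℝ, E) p)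
  have h3 : ContDiff ℝ ∞ fun w : E => A w := (LinearMap.toContinuousLinearMap A).contDiff
  have h2 : ContDiffAt ℝ ∞ (fun s => A (crd p p (ξ s))) s := h3.contDiffAt.comp s h1
  refine h2.congr_of_eventuallyEq (Eventually.of_forall fun s => ?_)
  exact (vec_crd p (mem_extChartAt_source (I := 𝓘(ℝ, E)) p) _).symm

/-- the norm of a tangent space is continuous -/
theorem continuous_nm (p : M) : Continuous fun w : E => nm p w := by
  have h1 : ∀ w : E, ContDiffAt ℝ ∞ (fun w : E => nm p w ^ 2) w := fun w =>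
    (smV_const p (ξ := fun w : E => w) (s := w) contDiffAt_id).norm_sq
  have h2 : Continuous fun w : E => nm p w ^ 2 :=
    continuous_iff_continuousAt.2 fun w => (h1 w).continuousAt
  have h3 : (fun w : E => nm p w) = fun w => Real.sqrt (nm p w ^ 2) :=
    funext fun w => (Real.sqrt_sq (nm_nonneg _ _)).symm
  rw [h3]
  exact h2.sqrt

/-- the logarithm of a curve, and its derivative -/
theorem hasDerivAt_lm (F : Facts e) {D : ℝ} (hD : 0 < D) (hB : InjGE e D) {c : ℝ → M} {t : ℝ}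
    (hc : ContMDiffAt 𝓘(ℝ, ℝ) 𝓘(ℝ, E) ∞ c t) :
    HasDerivAt (fun h : ℝ => (lm e (c t) (c (t + h)) : E)) (WC.vl c t) 0 := by
  set p : M := c t with hp
  set ξ : ℝ → E := fun h => lm e p (c (t + h)) with hξ
  have hc' : ContMDiffAt 𝓘(ℝ, ℝ) 𝓘(ℝ, E) ∞ (fun h => c (t + h)) 0 :=
    ContMDiffAt.comp (0 : ℝ) (g := c) (f := fun h : ℝ => t + h) (by rw [add_zero]; exact hc)
      (contDiffAt_const.add contDiffAt_id).contMDiffAt
  have hd0 : dist p (c (t + 0)) < D := by rw [add_zero, ← hp, dist_self]; exact hD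
  have h1 : SmV (fun _ : ℝ => p) (fun h => (ξ h : E)) 0 :=
    smV_lm F hB (a := fun _ : ℝ => p) (b := fun h => c (t + h)) contMDiffAt_const hc' hd0
  have h2 : ContDiffAt ℝ ∞ ξ 0 := contDiffAt_of_smV p h1
  have h3 : HasDerivAt ξ (deriv ξ 0) 0 := (h2.differentiableAt (by simp)).hasDerivAt
  have hξ0 : ξ 0 = 0 := by
    rw [hξ]
    change lm e p (c (t + 0)) = 0
    rw [add_zero, ← hp, lm_self F hD hB]
  -- the exponential map at `p`
  have hf : MDifferentiableAt 𝓘(ℝ, E) 𝓘(ℝ, E) (fun w : E => e p w) 0 :=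
    ((smV_const p (ξ := fun w : E => w) (s := (0 : E)) contDiffAt_id).exp
      F.isExp).mdifferentiableAt (by simp)
  let L : E → E := fun w => mfderiv 𝓘(ℝ, E) 𝓘(ℝ, E) (fun w : E => e p w) 0 w
  have hmd : ∀ {ζ : ℝ → E}, ζ 0 = 0 → DifferentiableAt ℝ ζ 0 →
      (mfderiv 𝓘(ℝ, ℝ) 𝓘(ℝ, E) (fun h : ℝ => e p (ζ h)) 0 (1 : ℝ) : E) = L (deriv ζ 0) := by
    intro ζ hζ0 hζ
    have hf' : MDifferentiableAt 𝓘(ℝ, E) 𝓘(ℝ, E) (fun w : E => e p w) (ζ 0) := by
      rw [hζ0]; exact hf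
    have k := mfderiv_comp (I := 𝓘(ℝ, ℝ)) (I' := 𝓘(ℝ, E)) (I'' := 𝓘(ℝ, E)) (0 : ℝ)
      (g := fun w : E => e p w) (f := ζ) hf' hζ.mdifferentiableAt
    have k2 : (mfderiv 𝓘(ℝ, ℝ) 𝓘(ℝ, E) (fun h : ℝ => e p (ζ h)) 0 (1 : ℝ) : E) =
        (mfderiv 𝓘(ℝ, E) 𝓘(ℝ, E) (fun w : E => e p w) (ζ 0) : E → E) (deriv ζ 0) := by
      change (mfderiv 𝓘(ℝ, ℝ) 𝓘(ℝ, E) ((fun w : E => e p w) ∘ ζ) 0 (1 : ℝ) : E) = _
      rw [k, mfderiv_eq_fderiv]
      rfl
    rw [k2, hζ0]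
    rfl
  have e1 := hmd hξ0 h3.differentiableAt
  have e2 := hmd (ζ := fun h : ℝ => h • deriv ξ 0) (zero_smul ℝ _)
    (differentiableAt_id.smul_const _)
  have e3 : deriv (fun h : ℝ => h • deriv ξ 0) 0 = deriv ξ 0 := by
    have := ((hasDerivAt_id (0 : ℝ)).smul_const (deriv ξ 0)).deriv
    rw [one_smul] at this
    exact this
  have e2' : (mfderiv 𝓘(ℝ, ℝ) 𝓘(ℝ, E) (fun h : ℝ => e p (h • deriv ξ 0 : E)) 0 (1 : ℝ) : E) =
      (mfderiv 𝓘(ℝ, ℝ) 𝓘(ℝ, E) (fun h : ℝ => e p (ξ h)) 0 (1 : ℝ) : E) :=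
    (Eq.trans (α := E) e2 (congrArg L e3)).trans e1.symm
  have e4 : (mfderiv 𝓘(ℝ, ℝ) 𝓘(ℝ, E) (fun h : ℝ => e p (h • deriv ξ 0 : E)) 0 (1 : ℝ) : E) =
      deriv ξ 0 := F.isExp.velocity p (deriv ξ 0)
  have e5 : deriv ξ 0 =
      (mfderiv 𝓘(ℝ, ℝ) 𝓘(ℝ, E) (fun h : ℝ => e p (ξ h)) 0 (1 : ℝ) : E) :=
    Eq.trans (α := E) e4.symm e2'
  -- the curve itself
  have h5 : (fun h : ℝ => e p (ξ h)) =ᶠ[𝓝 0] fun h => c (t + h) := by
    have h6 : ∀ᶠ h : ℝ in 𝓝 0, dist p (c (t + h)) < D :=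
      (continuousAt_const.dist hc'.continuousAt).eventually_lt_const hd0
    filter_upwards [h6] with h hh
    exact exp_lm F hB hh
  have h7 : (mfderiv 𝓘(ℝ, ℝ) 𝓘(ℝ, E) (fun h : ℝ => e p (ξ h)) 0 (1 : ℝ) : E) =
      (WC.vl (fun h => c (t + h)) 0 : E) := rel_congr_raw h5
  have e6 : deriv ξ 0 = WC.vl c t :=
    Eq.trans (α := E) (Eq.trans (α := E) e5 h7) (WC.vl_shift hc)
  rw [e6] at h3
  exact h3

/-- the metric speed of a curve is its speed -/
theorem tendsto_sp (F : Facts e) {D : ℝ} (hD : 0 < D) (hB : InjGE e D) {c : ℝ → M} {t : ℝ}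
    (hc : ContMDiffAt 𝓘(ℝ, ℝ) 𝓘(ℝ, E) ∞ c t) :
    Tendsto (fun h => dist (c t) (c (t + h)) / h) (𝓝[>] 0) (𝓝 (sp E c t)) := by
  have h1 := (hasDerivAt_lm F hD hB hc).tendsto_slope_zero_right
  have h2 : Tendsto (fun h : ℝ => nm (c t) (h⁻¹ • ((lm e (c t) (c (t + (0 + h))) : E) -
      lm e (c t) (c (t + 0))))) (𝓝[>] 0) (𝓝 (nm (c t) (WC.vl c t : E))) :=
    ((continuous_nm (c t)).tendsto _).comp h1
  refine h2.congr' ?_
  have h3 : ∀ᶠ h : ℝ in 𝓝 0, dist (c t) (c (t + h)) < D := by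
    have h4 : ContinuousAt (fun h : ℝ => c (t + h)) 0 :=
      ContinuousAt.comp (g := c) (f := fun h : ℝ => t + h) (by rw [add_zero]; exact hc.continuousAt)
        (continuous_const.add continuous_id).continuousAt
    refine (continuousAt_const.dist h4).eventually_lt_const ?_
    change dist (c t) (c (t + 0)) < D
    rw [add_zero, dist_self]
    exact hD
  filter_upwards [self_mem_nhdsWithin, nhdsWithin_le_nhds h3] with h hpos hd
  have hpos' : (0 : ℝ) < h := hpos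
  rw [zero_add, add_zero, lm_self F hD hB, sub_zero, nm_smul, nm_lm F hB hd, abs_inv,
    abs_of_pos hpos', inv_mul_eq_div]

theorem continuous_sp {c : ℝ → M} (hc : ContMDiff 𝓘(ℝ, ℝ) 𝓘(ℝ, E) ∞ c) :
    Continuous (sp E c) := by
  have h1 := H766.continuous_speed_sq hc
  have h2 : sp E c = fun t => Real.sqrt (‖(mfderiv 𝓘(ℝ, ℝ) 𝓘(ℝ, E) c t (1 : ℝ) :
      TangentSpace 𝓘(ℝ, E) (c t))‖ ^ 2) :=
    funext fun t => (Real.sqrt_sq (norm_nonneg _)).symm
  rw [h2]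
  exact h1.sqrt

/-- the distance is at most the integral of the speed -/
theorem dist_le_int {c : ℝ → M} (hc : ContMDiff 𝓘(ℝ, ℝ) 𝓘(ℝ, E) ∞ c) {s t : ℝ} (hst : s ≤ t) :
    dist (c s) (c t) ≤ ∫ x in s..t, sp E c x := by
  have hcont := continuous_sp hc
  have h0 : edist (c s) (c t) ≤ Manifold.pathELength 𝓘(ℝ, E) c s t := by
    rw [IsRiemannianManifold.out (I := 𝓘(ℝ, E)) (c s) (c t)]
    exact Manifold.riemannianEDist_le_pathELength (hc.of_le (by simp)).contMDiffOn rfl rfl hst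
  rw [Manifold.pathELength_eq_lintegral_mfderiv_Icc] at h0
  have h1 : ∫⁻ x in Icc s t, ‖(mfderiv 𝓘(ℝ, ℝ) 𝓘(ℝ, E) c x (1 : ℝ) :
      TangentSpace 𝓘(ℝ, E) (c x))‖ₑ = ∫⁻ x in Icc s t, ENNReal.ofReal (sp E c x) := by
    refine lintegral_congr fun x => ?_
    rw [← ofReal_norm]
    rfl
  have h1' : edist (c s) (c t) ≤ ∫⁻ x in Icc s t, ENNReal.ofReal (sp E c x) := h0.trans h1.le
  have hi : Integrable (sp E c) (volume.restrict (Icc s t)) := hcont.continuousOn.integrableOn_Icc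
  rw [← ofReal_integral_eq_lintegral_ofReal hi (Eventually.of_forall fun x => sp_nonneg c x),
    edist_dist, integral_Icc_eq_integral_Ioc, ← intervalIntegral.integral_of_le hst] at h1'
  exact (ENNReal.ofReal_le_ofReal_iff (intervalIntegral.integral_nonneg hst fun x _ =>
    sp_nonneg c x)).1 h1'

/-- **the variation is the length** -/
theorem var_eq (F : Facts e) {D : ℝ} (hD : 0 < D) (hB : InjGE e D) {c : ℝ → M}
    (hc : ContMDiff 𝓘(ℝ, ℝ) 𝓘(ℝ, E) ∞ c) {s t : ℝ} (hst : s ≤ t) :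
    eVariationOn c (Icc s t) = ENNReal.ofReal (∫ x in s..t, sp E c x) :=
  le_antisymm
    (var_le_integral (continuous_sp hc) (sp_nonneg c) (fun _ _ h => dist_le_int hc h) hst)
    (integral_le_var (continuous_sp hc) (sp_nonneg c) (fun _ _ h => dist_le_int hc h)
      (fun x => tendsto_sp F hD hB (hc x)) hst)

/-- a local Lipschitz bound gives a bound of the speed -/
theorem sp_le (F : Facts e) {D : ℝ} (hD : 0 < D) (hB : InjGE e D) {c : ℝ → M} {t K : ℝ}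
    (hc : ContMDiffAt 𝓘(ℝ, ℝ) 𝓘(ℝ, E) ∞ c t)
    (h : ∀ᶠ h in 𝓝[>] (0 : ℝ), dist (c t) (c (t + h)) ≤ K * h) : sp E c t ≤ K := by
  refine le_of_tendsto (tendsto_sp F hD hB hc) ?_
  filter_upwards [h, self_mem_nhdsWithin] with h hh hpos
  exact (div_le_iff₀ hpos).2 hh

/-- the distance is bounded by the energy -/
theorem dist_sq_le {c : ℝ → M} (hc : ContMDiff 𝓘(ℝ, ℝ) 𝓘(ℝ, E) ∞ c) {s t : ℝ} (hst : s ≤ t) :
    dist (c s) (c t) ^ 2 ≤ (t - s) * ∫ x in s..t, sp E c x ^ 2 := by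
  have hcont := continuous_sp hc
  have h1 := dist_le_int hc hst
  rcases eq_or_lt_of_le hst with h | h
  · rw [h]; simp
  have h2 : 0 < t - s := by linarith
  set A := ∫ x in s..t, sp E c x with hA
  set Q := ∫ x in s..t, sp E c x ^ 2 with hQ
  -- Cauchy-Schwarz by completing the square
  have h3 : 0 ≤ ∫ x in s..t, (sp E c x - A / (t - s)) ^ 2 :=
    intervalIntegral.integral_nonneg hst fun x _ => sq_nonneg _
  have h4 : ∫ x in s..t, (sp E c x - A / (t - s)) ^ 2 =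
      Q - 2 * (A / (t - s)) * A + (A / (t - s)) ^ 2 * (t - s) := by
    have e1 : ∀ x, (sp E c x - A / (t - s)) ^ 2 =
        (sp E c x ^ 2 - 2 * (A / (t - s)) * sp E c x) + (A / (t - s)) ^ 2 := fun x => by ring
    simp only [e1]
    rw [intervalIntegral.integral_add, intervalIntegral.integral_sub,
      intervalIntegral.integral_const_mul, intervalIntegral.integral_const, smul_eq_mul]
    · ring
    · exact (hcont.pow 2).intervalIntegrable _ _
    · exact (hcont.const_mul _).intervalIntegrable _ _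
    · exact ((hcont.pow 2).sub (hcont.const_mul _)).intervalIntegrable _ _
    · exact intervalIntegrable_const
  rw [h4] at h3
  have h5 : Q - 2 * (A / (t - s)) * A + (A / (t - s)) ^ 2 * (t - s) = Q - A ^ 2 / (t - s) := by
    field_simp
    ring
  rw [h5] at h3
  have h6 : A ^ 2 ≤ (t - s) * Q := by
    have h7 : A ^ 2 / (t - s) ≤ Q := by linarith
    rwa [div_le_iff₀ h2, mul_comm] at h7
  exact (pow_le_pow_left₀ dist_nonneg h1 2).trans h6

end

end Vale.Agent.P231.S3U
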