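import Vale.Agent.P231.H766.Uec4

/-!
# P231, stage 3, (U1): the replacement of the pieces of a curve by minimal geodesics, cell by cell
-/

set_option linter.unusedSectionVars false
set_option linter.unusedVariables false

open Set Filter Topology
open scoped ContDiff ENNReal

namespace Vale.Agent.P231.S3U

open Vale.Agent.P231.Fm Vale.Agent.P231.H766

/-- the curve `c`; on every cell `[i, i + 1]` the piece over `[i, i + s]` is replaced by the
curve `G (c i) (c (i + s))` -/
noncomputable def NlZ {X : Type*} (G : X → X → ℝ → X) (c : ℝ → X) (s x : ℝ) : X :=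
  if Int.fract x ≤ 1 / 2 then G (c ⌊x⌋) (c (⌊x⌋ + s)) (stp (2 * Int.fract x))
  else c (⌊x⌋ + (s + (1 - s) * stp (2 * Int.fract x - 1)))

section Bare

variable {X : Type*} {G : X → X → ℝ → X}

theorem NlZ_low (c : ℝ → X) (s : ℝ) (n : ℤ) {x : ℝ} (h0 : 0 ≤ x - n) (h1 : x - n ≤ 1 / 2) :
    NlZ G c s x = G (c n) (c (n + s)) (stp (2 * (x - n))) := by
  have hf : ⌊x⌋ = n := by
    rw [Int.floor_eq_iff]
    constructor <;> linarith
  have hr : Int.fract x = x - n := by rw [Int.fract, hf]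
  rw [NlZ, hr, hf, if_pos h1]

theorem NlZ_high (c : ℝ → X) (s : ℝ) (n : ℤ) {x : ℝ} (h0 : 1 / 2 < x - n) (h1 : x - n < 1) :
    NlZ G c s x = c (n + (s + (1 - s) * stp (2 * (x - n) - 1))) := by
  have hf : ⌊x⌋ = n := by
    rw [Int.floor_eq_iff]
    constructor <;> linarith
  have hr : Int.fract x = x - n := by rw [Int.fract, hf]
  rw [NlZ, hr, hf, if_neg (not_le.2 h0)]

theorem NlZ_int (c : ℝ → X) (s : ℝ) (n : ℤ) (hG : G (c n) (c (n + s)) 0 = c n) :
    NlZ G c s n = c n := by
  rw [NlZ_low c s n (by simp) (by simp), sub_self, mul_zero, stp_of_le (by norm_num), hG]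

/-- local description, near an integer -/
theorem NlZ_near_int {x₀ : ℝ} {n : ℤ} (h : x₀ = n) : ∀ᶠ x in 𝓝 x₀, ∀ (c : ℝ → X) (s : ℝ),
    G (c n) (c (n + s)) 0 = c n → NlZ G c s x = c n := by
  have e1 : ∀ᶠ x in 𝓝 x₀, x < (n : ℝ) + 1 / 12 := eventually_lt_nhds (by rw [h]; linarith)
  have e2 : ∀ᶠ x in 𝓝 x₀, (n : ℝ) - 1 / 12 < x := eventually_gt_nhds (by rw [h]; linarith)
  filter_upwards [e1, e2] with x h1 h2 c s hG
  rcases le_or_gt 0 (x - n) with h3 | h3
  · rw [NlZ_low c s n h3 (by linarith), stp_of_le (by linarith), hG]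
  · have h4 : x - ((n - 1 : ℤ) : ℝ) = x - n + 1 := by push_cast; ring
    rw [NlZ_high c s (n - 1) (by rw [h4]; linarith) (by rw [h4]; linarith), h4,
      stp_of_ge (by linarith)]
    congr 1
    push_cast
    ring

/-- local description, first half of a cell -/
theorem NlZ_near_low {x₀ : ℝ} {n : ℤ} (h0 : 0 < x₀ - n) (h1 : x₀ - n < 1 / 2) :
    ∀ᶠ x in 𝓝 x₀, ∀ (c : ℝ → X) (s : ℝ),
      NlZ G c s x = G (c n) (c (n + s)) (stp (2 * (x - n))) := by
  have e1 : ∀ᶠ x in 𝓝 x₀, x < (n : ℝ) + 1 / 2 := eventually_lt_nhds (by linarith)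
  have e2 : ∀ᶠ x in 𝓝 x₀, (n : ℝ) < x := eventually_gt_nhds (by linarith)
  filter_upwards [e1, e2] with x h1 h2 c s
  exact NlZ_low c s n (by linarith) (by linarith)

/-- local description, near the joint -/
theorem NlZ_near_half {x₀ : ℝ} {n : ℤ} (h : x₀ - n = 1 / 2) :
    ∀ᶠ x in 𝓝 x₀, ∀ (c : ℝ → X) (s : ℝ), G (c n) (c (n + s)) 1 = c (n + s) →
      NlZ G c s x = c (n + s) := by
  have e1 : ∀ᶠ x in 𝓝 x₀, x < (n : ℝ) + 7 / 12 := eventually_lt_nhds (by linarith)
  have e2 : ∀ᶠ x in 𝓝 x₀, (n : ℝ) + 5 / 12 < x := eventually_gt_nhds (by linarith)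
  filter_upwards [e1, e2] with x h1 h2 c s hG
  rcases le_or_gt (x - n) (1 / 2) with h3 | h3
  · rw [NlZ_low c s n (by linarith) h3, stp_of_ge (by linarith), hG]
  · rw [NlZ_high c s n h3 (by linarith), stp_of_le (by linarith), mul_zero, add_zero]

/-- local description, second half of a cell -/
theorem NlZ_near_high {x₀ : ℝ} {n : ℤ} (h0 : 1 / 2 < x₀ - n) (h1 : x₀ - n < 1) :
    ∀ᶠ x in 𝓝 x₀, ∀ (c : ℝ → X) (s : ℝ),
      NlZ G c s x = c (n + (s + (1 - s) * stp (2 * (x - n) - 1))) := by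
  have e1 : ∀ᶠ x in 𝓝 x₀, x < (n : ℝ) + 1 := eventually_lt_nhds (by linarith)
  have e2 : ∀ᶠ x in 𝓝 x₀, (n : ℝ) + 1 / 2 < x := eventually_gt_nhds (by linarith)
  filter_upwards [e1, e2] with x h1 h2 c s
  exact NlZ_high c s n (by linarith) (by linarith)

theorem floor_cases (x₀ : ℝ) : ∃ n : ℤ, n = ⌊x₀⌋ ∧ (x₀ = n ∨ (0 < x₀ - n ∧ x₀ - n < 1 / 2) ∨
    x₀ - n = 1 / 2 ∨ (1 / 2 < x₀ - n ∧ x₀ - n < 1)) := by
  refine ⟨⌊x₀⌋, rfl, ?_⟩
  have h0 : 0 ≤ x₀ - ⌊x₀⌋ := sub_nonneg.2 (Int.floor_le _)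
  have h1 : x₀ - ⌊x₀⌋ < 1 := by
    rw [sub_lt_iff_lt_add']; exact Int.lt_floor_add_one _
  rcases eq_or_lt_of_le h0 with h2 | h2
  · left; linarith
  · right
    rcases lt_trichotomy (x₀ - ⌊x₀⌋) (1 / 2) with h3 | h3 | h3
    · exact Or.inl ⟨h2, h3⟩
    · exact Or.inr (Or.inl h3)
    · exact Or.inr (Or.inr ⟨h3, h1⟩)

/-- periodicity -/
theorem NlZ_per {c : ℝ → X} {m : ℤ} (hc : ∀ x, c (x + m) = c x) (s x : ℝ) :
    NlZ G c s (x + m) = NlZ G c s x := by
  have h1 : ∀ y, c (⌊x⌋ + m + y) = c (⌊x⌋ + y) := fun y => by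
    rw [show (⌊x⌋ : ℝ) + m + y = (⌊x⌋ + y) + m by ring, hc]
  have h2 := h1 0
  rw [add_zero, add_zero] at h2
  rw [NlZ, NlZ, Int.fract_add_intCast, Int.floor_add_intCast]
  push_cast
  rw [h1, h1, h2]

/-- the operation at `s = 0` is a reparametrisation -/
theorem NlZ_zero {c : ℝ → X} {x : ℝ} (hG : ∀ r ∈ Icc (0 : ℝ) 1, G (c ⌊x⌋) (c ⌊x⌋) r = c ⌊x⌋) :
    NlZ G c 0 x = c (bet x) := by
  rw [NlZ, bet]
  split_ifs with h
  · rw [add_zero, hG _ (stp_mem _), stp_of_le (by linarith), add_zero]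
  · rw [zero_add, sub_zero, one_mul]

theorem NlZ_const {p : X} (hG : ∀ r ∈ Icc (0 : ℝ) 1, G p p r = p) (s x : ℝ) :
    NlZ G (fun _ => p) s x = p := by
  rw [NlZ]
  split_ifs with h
  · exact hG _ (stp_mem _)
  · rfl

/-- at `s = 1` only the values at the integers matter -/
theorem NlZ_one_congr {c c' : ℝ → X} (h : ∀ n : ℤ, c n = c' n) (x : ℝ) :
    NlZ G c 1 x = NlZ G c' 1 x := by
  have h1 : c (⌊x⌋ + 1) = c' (⌊x⌋ + 1) := by
    have := h (⌊x⌋ + 1)
    push_cast at this
    exact this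
  rw [NlZ, NlZ, sub_self, zero_mul, add_zero, h1, h]

/-- continuity of the modified curve -/
theorem continuous_NlZ [TopologicalSpace X] {c : ℝ → X} (hc : Continuous c) {s : ℝ}
    (h0 : ∀ n : ℤ, G (c n) (c (n + s)) 0 = c n) (h1 : ∀ n : ℤ, G (c n) (c (n + s)) 1 = c (n + s))
    (hG : ∀ n : ℤ, Continuous fun x => G (c n) (c (n + s)) (stp x)) : Continuous (NlZ G c s) := by
  have hstp : Continuous stp := stp_contDiff.continuous
  rw [continuous_iff_continuousAt]
  intro x₀
  obtain ⟨n, hn, h | h | h | h⟩ := floor_cases x₀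
  · have e := NlZ_near_int (G := G) h
    refine (continuousAt_const (y := c n)).congr ?_
    filter_upwards [e] with x hx using (hx c s (h0 n)).symm
  · have e := NlZ_near_low (G := G) h.1 h.2
    have h2 : ContinuousAt (fun x : ℝ => G (c n) (c (n + s)) (stp (2 * (x - n)))) x₀ :=
      ((hG n).comp (continuous_const.mul (continuous_id.sub continuous_const))).continuousAt
    refine h2.congr ?_
    filter_upwards [e] with x hx using (hx c s).symm
  · have e := NlZ_near_half (G := G) h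
    refine (continuousAt_const (y := c (n + s))).congr ?_
    filter_upwards [e] with x hx using (hx c s (h1 n)).symm
  · have e := NlZ_near_high (G := G) h.1 h.2
    have h2 : ContinuousAt (fun x : ℝ => c (n + (s + (1 - s) * stp (2 * (x - n) - 1)))) x₀ := by
      refine (hc.comp ?_).continuousAt
      refine continuous_const.add (continuous_const.add (continuous_const.mul (hstp.comp ?_)))
      exact (continuous_const.mul (continuous_id.sub continuous_const)).sub continuous_const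
    refine h2.congr ?_
    filter_upwards [e] with x hx using (hx c s).symm

end Bare

/-! ### the real case -/

/-- linear interpolation -/
def G₀ (a b s : ℝ) : ℝ := a + s * (b - a)

theorem continuous_NlZ_G₀ {θ : ℝ → ℝ} (hθ : Continuous θ) (s : ℝ) :
    Continuous (NlZ G₀ θ s) := by
  refine continuous_NlZ hθ (fun n => ?_) (fun n => ?_) fun n => ?_
  · simp [G₀]
  · simp [G₀]
  · exact continuous_const.add (stp_contDiff.continuous.mul continuous_const)

theorem NlZ_G₀_add {θ : ℝ → ℝ} {m : ℤ} (hθ : ∀ x, θ (x + m) = θ x + 1) (s x : ℝ) :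
    NlZ G₀ θ s (x + m) = NlZ G₀ θ s x + 1 := by
  have h1 : ∀ y, θ (⌊x⌋ + m + y) = θ (⌊x⌋ + y) + 1 := fun y => by
    rw [show (⌊x⌋ : ℝ) + m + y = (⌊x⌋ + y) + m by ring, hθ]
  have h2 := h1 0
  rw [add_zero, add_zero] at h2
  rw [NlZ, NlZ, Int.fract_add_intCast, Int.floor_add_intCast]
  push_cast
  rw [h1, h1, h2]
  split_ifs
  · simp only [G₀]; ring
  · rfl

theorem monotone_NlZ_G₀ {θ : ℝ → ℝ} (hθ : Monotone θ) {s : ℝ} (hs : s ∈ Icc (0 : ℝ) 1) :
    Monotone (NlZ G₀ θ s) := by
  have hs0 := hs.1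
  have hs1 : 0 ≤ 1 - s := by linarith [hs.2]
  -- bounds on a cell
  have hlow : ∀ x, θ ⌊x⌋ ≤ NlZ G₀ θ s x := by
    intro x
    rw [NlZ]
    split_ifs
    · have h1 : θ ⌊x⌋ ≤ θ (⌊x⌋ + s) := hθ (by linarith)
      have h2 := mul_nonneg (stp_nonneg (2 * Int.fract x)) (sub_nonneg.2 h1)
      simp only [G₀]
      linarith
    · refine hθ ?_
      have := mul_nonneg hs1 (stp_nonneg (2 * Int.fract x - 1))
      linarith
  have hhigh : ∀ x, NlZ G₀ θ s x ≤ θ (⌊x⌋ + 1) := by
    intro x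
    rw [NlZ]
    split_ifs
    · have h1 : θ ⌊x⌋ ≤ θ (⌊x⌋ + s) := hθ (by linarith)
      have h2 : θ (⌊x⌋ + s) ≤ θ (⌊x⌋ + 1) := hθ (by linarith [hs.2])
      have h3 := mul_le_mul_of_nonneg_right (stp_le_one (2 * Int.fract x)) (sub_nonneg.2 h1)
      simp only [G₀]
      linarith
    · refine hθ ?_
      have := mul_le_mul_of_nonneg_left (stp_le_one (2 * Int.fract x - 1)) hs1
      linarith
  intro x y hxy
  rcases (Int.floor_mono hxy).lt_or_eq with h | h
  · have h2 : (⌊x⌋ : ℝ) + 1 ≤ ⌊y⌋ := by exact_mod_cast h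
    exact (hhigh x).trans ((hθ h2).trans (hlow y))
  · have h2 : Int.fract x ≤ Int.fract y := by
      rw [Int.fract, Int.fract, h]
      linarith
    rw [NlZ, NlZ, h]
    have h1 : θ ⌊y⌋ ≤ θ (⌊y⌋ + s) := hθ (by linarith)
    split_ifs with h3 h4 h4
    · have h5 := stp_mono (show 2 * Int.fract x ≤ 2 * Int.fract y by linarith)
      have := mul_le_mul_of_nonneg_right h5 (sub_nonneg.2 h1)
      simp only [G₀]
      linarith
    · have h5 := mul_le_mul_of_nonneg_right (stp_le_one (2 * Int.fract x)) (sub_nonneg.2 h1)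
      have h6 : θ (⌊y⌋ + s) ≤ θ (⌊y⌋ + (s + (1 - s) * stp (2 * Int.fract y - 1))) := by
        refine hθ ?_
        have := mul_nonneg hs1 (stp_nonneg (2 * Int.fract y - 1))
        linarith
      simp only [G₀]
      linarith
    · exact absurd (h2.trans h4) h3
    · refine hθ ?_
      have h5 := stp_mono (show 2 * Int.fract x - 1 ≤ 2 * Int.fract y - 1 by linarith)
      have := mul_le_mul_of_nonneg_left h5 hs1
      linarith

/-! ### the metric case -/

section Met

variable {M : Type*} [MetricSpace M] {DM : Dif M} {D : ℝ} (g : Geo DM D)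

/-- the variation of the geodesic piece -/
theorem var_Gn {a b : M} (h : dist a b < D) (n : ℤ) :
    eVariationOn (fun x => g.G a b (stp (2 * (x - n)))) (Icc (n : ℝ) (n + 1 / 2)) ≤ edist a b := by
  have h1 := var_G g h
  have h2 := eVariationOn.comp_le_of_monotoneOn (fun x => g.G a b (stp (2 * x)))
    (t := Icc (n : ℝ) (n + 1 / 2)) (s := Icc (0 : ℝ) (1 / 2)) (fun x : ℝ => x - n)
    (fun x _ y _ h => by simpa using h) (fun x hx => ⟨by linarith [hx.1], by linarith [hx.2]⟩)
  exact h2.trans h1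

/-- the operation does not increase the variation on a cell -/
theorem var_cell {c : ℝ → M} {s : ℝ} (hs : s ∈ Icc (0 : ℝ) 1) (n : ℤ)
    (hd : dist (c n) (c (n + s)) < D) (hd' : dist (c (n + 1)) (c (n + 1 + s)) < D) :
    eVariationOn (NlZ g.G c s) (Icc (n : ℝ) (n + 1)) ≤ eVariationOn c (Icc (n : ℝ) (n + 1)) := by
  have hs0 := hs.1
  have hs1 : 0 ≤ 1 - s := by linarith [hs.2]
  have s1 : eVariationOn (NlZ g.G c s) (Icc (n : ℝ) (n + 1)) =
      eVariationOn (NlZ g.G c s) (Icc (n : ℝ) (n + 1 / 2)) +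
        eVariationOn (NlZ g.G c s) (Icc ((n : ℝ) + 1 / 2) (n + 1)) := by
    have := eVariationOn.Icc_add_Icc (NlZ g.G c s) (s := univ) (a := (n : ℝ)) (b := n + 1 / 2)
      (c := n + 1) (by linarith) (by linarith) (mem_univ _)
    simpa only [univ_inter] using this.symm
  have s2 : eVariationOn c (Icc (n : ℝ) (n + 1)) =
      eVariationOn c (Icc (n : ℝ) (n + s)) + eVariationOn c (Icc ((n : ℝ) + s) (n + 1)) := by
    have := eVariationOn.Icc_add_Icc c (s := univ) (a := (n : ℝ)) (b := n + s)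
      (c := n + 1) (by linarith) (by linarith [hs.2]) (mem_univ _)
    simpa only [univ_inter] using this.symm
  rw [s1, s2]
  refine add_le_add ?_ ?_
  · have e : EqOn (NlZ g.G c s) (fun x => g.G (c n) (c (n + s)) (stp (2 * (x - n))))
        (Icc (n : ℝ) (n + 1 / 2)) := fun x hx =>
      NlZ_low c s n (by linarith [hx.1]) (by linarith [hx.2])
    rw [eVariationOn.eq_of_eqOn e]
    exact (var_Gn g hd n).trans (eVariationOn.edist_le c ⟨le_rfl, by linarith⟩
      ⟨by linarith, le_rfl⟩)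
  · have e : EqOn (NlZ g.G c s) (fun x => c (n + (s + (1 - s) * stp (2 * (x - n) - 1))))
        (Icc ((n : ℝ) + 1 / 2) (n + 1)) := by
      intro x hx
      change NlZ g.G c s x = c (n + (s + (1 - s) * stp (2 * (x - n) - 1)))
      rcases eq_or_lt_of_le hx.2 with h2 | h2
      · subst h2
        have h3 : NlZ g.G c s ((n + 1 : ℤ) : ℝ) = c ((n + 1 : ℤ) : ℝ) :=
          NlZ_int c s (n + 1) (g.zero _ _ (by push_cast; exact hd'))
        push_cast at h3
        rw [h3, stp_of_ge (by linarith)]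
        congr 1
        ring
      · rcases eq_or_lt_of_le hx.1 with h3 | h3
        · rw [NlZ_low c s n (by linarith) (by linarith), stp_of_ge (by linarith),
            g.one _ _ hd, stp_of_le (by linarith), mul_zero, add_zero]
        · exact NlZ_high c s n (by linarith) (by linarith)
    rw [eVariationOn.eq_of_eqOn e]
    refine eVariationOn.comp_le_of_monotoneOn c
      (fun x => n + (s + (1 - s) * stp (2 * (x - n) - 1))) (fun x _ y _ h => ?_) fun x _ => ?_
    · have := stp_mono (show 2 * (x - n) - 1 ≤ 2 * (y - n) - 1 by linarith)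
      have := mul_le_mul_of_nonneg_left this hs1
      simp only
      linarith
    · have h3 := mul_nonneg hs1 (stp_nonneg (2 * (x - n) - 1))
      have h4 := mul_le_mul_of_nonneg_left (stp_le_one (2 * (x - n) - 1)) hs1
      exact ⟨by linarith, by linarith⟩

/-- the operation does not increase the variation on `[0, m]` -/
theorem var_cells {c : ℝ → M} {s : ℝ} (hs : s ∈ Icc (0 : ℝ) 1)
    (hd : ∀ n : ℤ, dist (c n) (c (n + s)) < D) (m : ℕ) :
    eVariationOn (NlZ g.G c s) (Icc (0 : ℝ) m) ≤ eVariationOn c (Icc (0 : ℝ) m) := by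
  induction m with
  | zero =>
    rw [Nat.cast_zero, Icc_self]
    rw [eVariationOn.subsingleton _ subsingleton_singleton]
    exact bot_le
  | succ k ih =>
    have hk : (0 : ℝ) ≤ k := Nat.cast_nonneg k
    have key : ∀ f : ℝ → M, eVariationOn f (Icc (0 : ℝ) ((k + 1 : ℕ) : ℝ)) =
        eVariationOn f (Icc (0 : ℝ) k) + eVariationOn f (Icc (k : ℝ) (k + 1)) := by
      intro f
      have := eVariationOn.Icc_add_Icc f (s := univ) (a := (0 : ℝ)) (b := k)
        (c := k + 1) hk (by linarith) (mem_univ _)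
      push_cast
      simpa only [univ_inter] using this.symm
    rw [key, key]
    refine add_le_add ih ?_
    have h1 := var_cell g hs (k : ℤ) (hd k) (by
      have := hd (k + 1)
      push_cast at this
      exact this)
    simpa only [Int.cast_natCast] using h1

end Met

/-- the modified curve depends smoothly on parameters -/
theorem At_NlZ {M : Type*} [MetricSpace M] {DM : Dif M} {D : ℝ} (g : Geo DM D) {E : Type}
    [NormedAddCommGroup E] [NormedSpace ℝ E] [FiniteDimensional ℝ E] {c : E → ℝ → M}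
    {X s : E → ℝ} {x : E} (hc : ∀ f : E → ℝ, Sm f x → DM.At (fun y => c y (f y)) x)
    (hX : Sm X x) (hs : Sm s x) (hd : dist (c x ⌊X x⌋) (c x (⌊X x⌋ + s x)) < D) :
    DM.At (fun y => NlZ g.G (c y) (s y) (X y)) x := by
  obtain ⟨n, hn, hcase⟩ := floor_cases (X x)
  rw [← hn] at hd
  have hc0 : Sm (fun _ : E => (n : ℝ)) x := Sm.of_contDiff contDiff_const x
  have hns : Sm (fun y => (n : ℝ) + s y) x := by
    filter_upwards [hs] with y h1 using contDiffAt_const.add h1
  have hA : DM.At (fun y => c y n) x := hc _ hc0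
  have hB : DM.At (fun y => c y (n + s y)) x := hc _ hns
  have hdist : ∀ᶠ y in 𝓝 x, dist (c y n) (c y (n + s y)) < D :=
    ((g.cont hA).dist (g.cont hB)).eventually_lt_const hd
  have hXc : Tendsto X (𝓝 x) (𝓝 (X x)) := hX.continuousAt
  have haff : ∀ p q : ℝ, Sm (fun y => stp (p * (X y - n) + q)) x := by
    intro p q
    filter_upwards [hX] with y h1
    exact stp_contDiff.contDiffAt.comp y ((contDiffAt_const.mul (h1.sub contDiffAt_const)).add
      contDiffAt_const)
  rcases hcase with h | h | h | h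
  · refine DM.congr hA ?_
    filter_upwards [hXc.eventually (NlZ_near_int (G := g.G) h), hdist] with y h1 h2
    exact (h1 (c y) (s y) (g.zero _ _ h2)).symm
  · refine DM.congr (g.smooth hA hB (haff 2 0) hd) ?_
    filter_upwards [hXc.eventually (NlZ_near_low (G := g.G) h.1 h.2)] with y h1
    rw [h1, add_zero]
  · refine DM.congr hB ?_
    filter_upwards [hXc.eventually (NlZ_near_half (G := g.G) h), hdist] with y h1 h2
    exact (h1 (c y) (s y) (g.one _ _ h2)).symm
  · have hm : Sm (fun y => (n : ℝ) + (s y + (1 - s y) * stp (2 * (X y - n) + -1))) x := by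
      filter_upwards [hs, haff 2 (-1)] with y h4 h6
      exact contDiffAt_const.add (h4.add ((contDiffAt_const.sub h4).mul h6))
    refine DM.congr (hc _ hm) ?_
    filter_upwards [hXc.eventually (NlZ_near_high (G := g.G) h.1 h.2)] with y h1
    rw [h1]
    rfl

end Vale.Agent.P231.S3U
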