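import Vale.Agent.P231.S3U.Main

/-!
# P231, stage 3, (U1)-(U4): the equivariant curve shortening across `2 D`, on compact spaces
-/

set_option maxSynthPendingDepth 3
set_option linter.unusedSectionVars false
set_option linter.unusedVariables false

open Bundle Manifold Set Filter Module MeasureTheory
open scoped ContDiff Manifold Topology ENNReal

namespace Vale.Agent.P231.S3U

noncomputable section

open Vale.Agent.P234 hiding stp
open Vale.Agent.P231 Vale.Agent.P231.H775 Vale.Agent.P231.Fm Vale.Agent.P231.W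
open Vale.Agent.P231.WD3 Vale.Agent.P231.H766 Vale.Agent.P231.S3A

variable {E : Type*} [NormedAddCommGroup E] [NormedSpace ℝ E] [FiniteDimensional ℝ E]
  {M : Type*} [MetricSpace M] [ChartedSpace E M] [IsManifold 𝓘(ℝ, E) ∞ M]
  [RiemannianBundle (fun x : M => TangentSpace 𝓘(ℝ, E) x)]
  [IsContMDiffRiemannianBundle 𝓘(ℝ, E) ∞ E (fun x : M => TangentSpace 𝓘(ℝ, E) x)]
  {e : ∀ x : M, TangentSpace 𝓘(ℝ, E) x → M}
  [CompactSpace M] [ConnectedSpace M] [IsRiemannianManifold 𝓘(ℝ, E) M]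
  {B : Type*} {DB : Dif B} {A : CAct DB} {D : ℝ}

/-- the length is between the regularised length and the same minus `ε` -/
theorem vr_le_avg (F : Facts e) (hD : 0 < D) (hB : InjGE e D) (hpt : Pts DB) {C : B → M}
    (hC : DB.Map (dM E M) C) {ε : ℝ} (hε : 0 < ε) (b : B) :
    (vr A C b).toReal ≤ avg A (wsp E A C ε) b ∧ avg A (wsp E A C ε) b ≤ (vr A C b).toReal + ε := by
  have hc := loop_smooth (E := E) (A := A) hpt hC b
  have hwm : DB.Map (Dif.lin ℝ) (wsp E A C ε) := wsp_map hC hε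
  have hwc : Continuous fun x => wsp E A C ε (A.φ b x) :=
    (contDiff_orbit (A := A) hpt hwm b).continuous
  have hw1 : ∀ x, sp E (fun t => C (A.φ b t)) x ≤ wsp E A C ε (A.φ b x) := fun x => by
    rw [wsp, qs_phi hpt hC]
    refine Real.le_sqrt_of_sq_le ?_
    have := sq_nonneg ε
    linarith
  have hw2 : ∀ x, wsp E A C ε (A.φ b x) ≤ sp E (fun t => C (A.φ b t)) x + ε := fun x => by
    rw [wsp, qs_phi hpt hC]
    have h0 := sp_nonneg (E := E) (fun t => C (A.φ b t)) x
    refine Real.sqrt_le_iff.2 ⟨by positivity, ?_⟩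
    nlinarith
  rw [vr_toReal F hD hB hpt hC]
  constructor
  · exact intervalIntegral.integral_mono_on zero_le_one ((continuous_sp hc).intervalIntegrable _ _)
      (hwc.intervalIntegrable _ _) fun x _ => hw1 x
  · have h5 : ∫ x in (0 : ℝ)..1, (sp E (fun t => C (A.φ b t)) x + ε) =
        (∫ x in (0 : ℝ)..1, sp E (fun t => C (A.φ b t)) x) + ε := by
      rw [intervalIntegral.integral_add ((continuous_sp hc).intervalIntegrable _ _)
        intervalIntegrable_const, intervalIntegral.integral_const]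
      simp
    rw [← h5]
    exact intervalIntegral.integral_mono_on zero_le_one (hwc.intervalIntegrable _ _)
      (((continuous_sp hc).add continuous_const).intervalIntegrable _ _) fun x _ => hw2 x

theorem vr_lt_top (F : Facts e) (hD : 0 < D) (hB : InjGE e D) (hpt : Pts DB) {C : B → M}
    (hC : DB.Map (dM E M) C) (b : B) : vr A C b < (⊤ : ℝ≥0∞) := by
  rw [vr_eq F hD hB hpt hC]
  exact ENNReal.ofReal_lt_top

/-- on a compact space, loops of length `< L` have length `≤ L₀ < L`, uniformly -/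
theorem exists_unif_len [TopologicalSpace B] [CompactSpace B]
    (hcont : ∀ f : B → ℝ, DB.Map (Dif.lin ℝ) f → Continuous f) (F : Facts e) (hD : 0 < D)
    (hB : InjGE e D) (hpt : Pts DB) {C : B → M} (hC : DB.Map (dM E M) C) {L : ℝ} (hL : 0 < L)
    (hlen : ∀ b, vr A C b < ENNReal.ofReal L) :
    ∃ L₀ : ℝ, 0 ≤ L₀ ∧ L₀ < L ∧ ∀ b, vr A C b ≤ ENNReal.ofReal L₀ := by
  have hr : ∀ b, (vr A C b).toReal < L := fun b => by
    have h1 := hlen b
    rw [← ENNReal.ofReal_toReal (vr_lt_top (A := A) F hD hB hpt hC b).ne] at h1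
    exact (ENNReal.ofReal_lt_ofReal_iff hL).1 h1
  have hex : ∀ b, ∃ ε : ℝ, 0 < ε ∧ avg A (wsp E A C ε) b < L := fun b => by
    refine ⟨(L - (vr A C b).toReal) / 2, by linarith [hr b], ?_⟩
    have h1 := (vr_le_avg (A := A) F hD hB hpt hC
      (show 0 < (L - (vr A C b).toReal) / 2 by linarith [hr b]) b).2
    linarith [hr b]
  choose ε hε hε2 using hex
  have hav : ∀ b, Continuous (avg A (wsp E A C (ε b))) := fun b => by
    have h1 : DB.Map (Dif.lin ℝ) (wsp E A C (ε b)) := wsp_map hC (hε b)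
    have h2 : DB.Map (Dif.lin ℝ) (avg A (wsp E A C (ε b))) := avg_map h1
    exact hcont _ h2
  set R : B → ℝ := fun b => (avg A (wsp E A C (ε b)) b + L) / 2 with hR
  have hR1 : ∀ b, avg A (wsp E A C (ε b)) b < R b := fun b => by
    have := hε2 b
    simp only [hR]
    linarith
  have hR2 : ∀ b, R b < L := fun b => by
    have := hε2 b
    simp only [hR]
    linarith
  have hO : ∀ b, {b' | avg A (wsp E A C (ε b)) b' < R b} ∈ 𝓝 b := fun b =>
    (isOpen_lt (hav b) continuous_const).mem_nhds (hR1 b)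
  obtain ⟨t, ht⟩ := CompactSpace.elim_nhds_subcover _ hO
  have hbd : ∃ L₀ : ℝ, 0 ≤ L₀ ∧ L₀ < L ∧ ∀ b ∈ t, R b ≤ L₀ := by
    classical
    clear ht
    induction t using Finset.induction_on with
    | empty => exact ⟨0, le_rfl, hL, fun b hb => absurd hb (by simp)⟩
    | insert a s ha ih =>
      obtain ⟨L₀, h1, h2, h3⟩ := ih
      refine ⟨max L₀ (R a), h1.trans (le_max_left _ _), max_lt h2 (hR2 a), fun b hb => ?_⟩
      rcases Finset.mem_insert.1 hb with h4 | h4
      · rw [h4]; exact le_max_right _ _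
      · exact (h3 b h4).trans (le_max_left _ _)
  obtain ⟨L₀, h1, h2, h3⟩ := hbd
  refine ⟨L₀, h1, h2, fun b => ?_⟩
  have h4 : b ∈ ⋃ x ∈ t, {b' | avg A (wsp E A C (ε x)) b' < R x} := by
    rw [ht]
    trivial
  simp only [mem_iUnion, exists_prop] at h4
  obtain ⟨a, ha, hb⟩ := h4
  have h5 : avg A (wsp E A C (ε a)) b < R a := hb
  have h6 := (vr_le_avg (A := A) F hD hB hpt hC (hε a) b).1
  rw [← ENNReal.ofReal_toReal (vr_lt_top (A := A) F hD hB hpt hC b).ne]
  exact ENNReal.ofReal_le_ofReal (by linarith [h3 a ha])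

/-- **The equivariant curve shortening across `2 D` on a compact space.** -/
theorem shorten_compact [TopologicalSpace B] [CompactSpace B]
    (hcont : ∀ f : B → ℂ, DB.Map (Dif.lin ℂ) f → Continuous f)
    (hsep : ∀ b, ∃ f : B → ℝ, DB.Map (Dif.lin ℝ) f ∧ fou A f b ≠ 0)
    (F : Facts e) (hD : 0 < D) (hB : InjGE e D) (hdiam : ∀ p q : M, dist p q ≤ D)
    (hpt : Pts DB) {C : B → M} (hC : DB.Map (dM E M) C)
    (hlen : ∀ b, vr A C b < ENNReal.ofReal (4 * D)) {ρ : ℝ} (hρ : 0 < ρ) :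
    ∃ γ : ℝ, 0 < γ ∧ γ < 2 * D ∧ ∃ C' : B → M,
        Hty (dM E M) A (vr A C) (Kc A C) C C' ∧
        ∀ b, ((∀ t, sp E (fun t => C' (A.φ b t)) t ≤ 2 * D - γ) ∧
            Eb E A C' b ≤ (2 * D - γ) ^ 2) ∨
          ((∀ t, sp E (fun t => C' (A.φ b t)) t ≤ 2 * D + ρ) ∧
            Eb E A C' b ≤ (2 * D + ρ) ^ 2 ∧ S3R.Cl e D A C' ρ b) := by
  obtain ⟨δ, L, hδ, hf, hcov⟩ := exists_list (A := A) hcont hsep
  have hcont' : ∀ f : B → ℝ, DB.Map (Dif.lin ℝ) f → Continuous f := by
    intro f hf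
    have h1 : DB.Map (Dif.lin ℂ) (fun b => (f b : ℂ)) := by
      intro V _ _ _ u x hu
      have h2 : Sm (fun y => f (u y)) x := hf hu
      change Sm (fun y => (f (u y) : ℂ)) x
      filter_upwards [h2] with y hy using Complex.ofRealCLM.contDiff.contDiffAt.comp y hy
    have h3 := Complex.continuous_re.comp (hcont _ h1)
    exact h3
  obtain ⟨L₀, l0, l1, l2⟩ := exists_unif_len (A := A) hcont' F hD hB hpt hC
    (show 0 < 4 * D by positivity) hlen
  obtain ⟨γ, h1, h2, h3⟩ := shorten (A := A) F hD hB hdiam hpt l0 l1 hδ L hf hcov hρ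
  obtain ⟨C', h4, h5⟩ := h3 C hC l2
  have hC' : DB.Map (dM E M) C' := h4.smooth_right
  refine ⟨γ, h1, h2, C', h4, fun b => ?_⟩
  rcases h5 b with h6 | ⟨h6, h7⟩
  · exact Or.inl ⟨h6, Eb_le hpt hC' h6⟩
  · exact Or.inr ⟨h6, Eb_le hpt hC' h6, h7⟩

end

end Vale.Agent.P231.S3U
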