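import Vale.Agent.P231.S3U.Spd
import Vale.Agent.P231.H766.Unif

/-!
# P231, stage 3, (U4), part 2: speed and energy of the loops of an equivariant family
-/

set_option maxSynthPendingDepth 3
set_option linter.unusedSectionVars false
set_option linter.unusedVariables false

open Bundle Manifold Set Filter Module MeasureTheory
open scoped ContDiff Manifold Topology ENNReal

namespace Vale.Agent.P231.S3U

noncomputable section

open Vale.Agent.P234 Vale.Agent.P231 Vale.Agent.P231.H775 Vale.Agent.P231.Fm Vale.Agent.P231.W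
open Vale.Agent.P231.WD3 Vale.Agent.P231.H766

/-- every point is a plot -/
def Pts {B : Type*} (DB : Dif B) : Prop := ∀ b : B, DB.At (fun _ : ℝ => b) 0

theorem Pts.at {B : Type*} {DB : Dif B} (h : Pts DB) (b : B) {V : Type} [NormedAddCommGroup V]
    [NormedSpace ℝ V] [FiniteDimensional ℝ V] (x : V) : DB.At (fun _ : V => b) x :=
  DB.comp (u := fun _ : ℝ => b) (g := fun _ : V => (0 : ℝ)) (h b)
    (Sm.of_contDiff contDiff_const _)

section Abs

variable {B : Type*} {DB : Dif B} {A : CAct DB}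

theorem map_orbit (A : CAct DB) {Y : Type*} {DY : Dif Y} {f : B → Y} (hf : DB.Map DY f) :
    (DB.prod (Dif.lin ℝ)).Map DY (fun p => f (A.φ p.1 p.2)) := by
  intro V _ _ _ u x hu
  exact hf (A.at_phi hu.1 hu.2)

/-- smooth functions along an orbit -/
theorem contDiff_orbit (hpt : Pts DB) {f : B → ℝ} (hf : DB.Map (Dif.lin ℝ) f) (b : B) :
    ContDiff ℝ ∞ fun t => f (A.φ b t) := by
  refine contDiff_iff_contDiffAt.2 fun t => ?_
  have h : Sm (fun t : ℝ => f (A.φ b t)) t :=
    hf (A.at_phi (u := fun _ : ℝ => b) (hpt.at b t) (Sm.of_contDiff contDiff_id t))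
  exact h.contDiffAt

/-- the average of a function over the orbits -/
def avg (A : CAct DB) (f : B → ℝ) (b : B) : ℝ := ∫ t in (0 : ℝ)..1, f (A.φ b t)

theorem avg_map {f : B → ℝ} (hf : DB.Map (Dif.lin ℝ) f) : DB.Map (Dif.lin ℝ) (avg A f) :=
  H766.map_integral (map_orbit A hf) 1

theorem avg_phi (f : B → ℝ) (b : B) (t : ℝ) : avg A f (A.φ b t) = avg A f b := by
  have hper : Function.Periodic (fun s => f (A.φ b s)) 1 := fun s => by
    have : s + 1 = s + ((1 : ℤ) : ℝ) := by simp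
    change f (A.φ b (s + 1)) = f (A.φ b s)
    rw [this, A.add_int]
  have h1 := hper.intervalIntegral_add_eq t 0
  have h2 : avg A f (A.φ b t) = ∫ s in (0 : ℝ)..1, (fun s => f (A.φ b s)) (t + s) := by
    unfold avg
    refine intervalIntegral.integral_congr fun s _ => ?_
    simp only [A.add]
  rw [h2, intervalIntegral.integral_comp_add_left (f := fun s => f (A.φ b s)) t, add_zero, h1,
    zero_add]
  rfl

end Abs

variable {E : Type*} [NormedAddCommGroup E] [NormedSpace ℝ E] [FiniteDimensional ℝ E]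
  {M : Type*} [MetricSpace M] [ChartedSpace E M] [IsManifold 𝓘(ℝ, E) ∞ M]
  [RiemannianBundle (fun x : M => TangentSpace 𝓘(ℝ, E) x)]
  [IsContMDiffRiemannianBundle 𝓘(ℝ, E) ∞ E (fun x : M => TangentSpace 𝓘(ℝ, E) x)]
  {e : ∀ x : M, TangentSpace 𝓘(ℝ, E) x → M}
  [CompactSpace M] [ConnectedSpace M] [IsRiemannianManifold 𝓘(ℝ, E) M]
  {B : Type*} {DB : Dif B} {A : CAct DB} {C : B → M}

/-- the squared speed of the loop of `b` at the time `0` -/
def qs (E : Type*) [NormedAddCommGroup E] [NormedSpace ℝ E] {M : Type*} [MetricSpace M]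
    [ChartedSpace E M] [RiemannianBundle (fun x : M => TangentSpace 𝓘(ℝ, E) x)]
    {B : Type*} {DB : Dif B} (A : CAct DB) (C : B → M) (b : B) : ℝ :=
  sp E (fun t => C (A.φ b t)) 0 ^ 2

/-- the energy of the loop of `b` -/
def Eb (E : Type*) [NormedAddCommGroup E] [NormedSpace ℝ E] {M : Type*} [MetricSpace M]
    [ChartedSpace E M] [RiemannianBundle (fun x : M => TangentSpace 𝓘(ℝ, E) x)]
    {B : Type*} {DB : Dif B} (A : CAct DB) (C : B → M) (b : B) : ℝ :=
  ∫ t in (0 : ℝ)..1, sp E (fun t => C (A.φ b t)) t ^ 2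

theorem qs_nonneg (b : B) : 0 ≤ qs E A C b := sq_nonneg _

/-- the loops are smooth -/
theorem loop_smooth (hpt : Pts DB) (hC : DB.Map (dM E M) C) (b : B) :
    ContMDiff 𝓘(ℝ, ℝ) 𝓘(ℝ, E) ∞ (fun t => C (A.φ b t)) := by
  intro t
  have h : (dM E M).At (fun t : ℝ => C (A.φ b t)) t :=
    hC (A.at_phi (u := fun _ : ℝ => b) (hpt.at b t) (Sm.of_contDiff contDiff_id t))
  have h' : ∀ᶠ s in 𝓝 t, ContMDiffAt 𝓘(ℝ, ℝ) 𝓘(ℝ, E) ∞ (fun t : ℝ => C (A.φ b t)) s := h
  exact h'.self_of_nhds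

theorem loop_cont (hpt : Pts DB) (hC : DB.Map (dM E M) C) (b : B) :
    Continuous (fun t => C (A.φ b t)) := (loop_smooth (E := E) hpt hC b).continuous

/-- the squared speed is smooth -/
theorem qs_map (hC : DB.Map (dM E M) C) : DB.Map (Dif.lin ℝ) (qs E A C) := by
  have h0 : (DB.prod (Dif.lin ℝ)).Map (dM E M) (fun p : B × ℝ => C (A.φ p.1 p.2)) :=
    map_orbit A hC
  have h1 : DB.Map (dTM E M) (fun x => tb (C (A.φ x 0)) (WC.vl (fun t => C (A.φ x t)) 0)) :=
    WC.map_vel h0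
  intro V _ _ _ u x hu
  exact WC.map_nm_sq h1 hu

theorem qs_phi (hpt : Pts DB) (hC : DB.Map (dM E M) C) (b : B) (t : ℝ) :
    qs E A C (A.φ b t) = sp E (fun s => C (A.φ b s)) t ^ 2 := by
  have h1 : (fun s => C (A.φ (A.φ b t) s)) = fun s => C (A.φ b (t + s)) :=
    funext fun s => by rw [A.add]
  have h2 := WC.vl_shift (g := fun s => C (A.φ b s)) (t := t) (loop_smooth hpt hC b t)
  have h3 : C (A.φ b (t + 0)) = C (A.φ b t) := by rw [add_zero]
  unfold qs
  rw [h1]
  have h4 : sp E (fun s => C (A.φ b (t + s))) 0 = sp E (fun s => C (A.φ b s)) t := by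
    unfold sp
    change nm (C (A.φ b (t + 0))) (WC.vl (fun s => C (A.φ b (t + s))) 0 : E) = _
    rw [h2, h3]
  rw [h4]

theorem Eb_eq (hpt : Pts DB) (hC : DB.Map (dM E M) C) (b : B) :
    Eb E A C b = avg A (qs E A C) b := by
  unfold Eb avg
  refine intervalIntegral.integral_congr fun t _ => ?_
  simp only [qs_phi hpt hC]

theorem Eb_map (hpt : Pts DB) (hC : DB.Map (dM E M) C) : DB.Map (Dif.lin ℝ) (Eb E A C) := by
  have h1 : Eb E A C = avg A (qs E A C) := funext fun b => Eb_eq hpt hC b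
  rw [h1]
  have h2 : DB.Map (Dif.lin ℝ) (qs E A C) := qs_map hC
  intro V _ _ _ u x hu
  exact avg_map h2 hu

theorem Eb_phi (hpt : Pts DB) (hC : DB.Map (dM E M) C) (b : B) (t : ℝ) :
    Eb E A C (A.φ b t) = Eb E A C b := by
  rw [Eb_eq hpt hC, Eb_eq hpt hC, avg_phi]

/-- short pieces of a loop of bounded energy -/
theorem dist_le_of_Eb (hpt : Pts DB) (hC : DB.Map (dM E M) C) (b : B) {s t : ℝ} (hst : s ≤ t)
    (hst1 : t ≤ s + 1) : dist (C (A.φ b s)) (C (A.φ b t)) ^ 2 ≤ (t - s) * Eb E A C b := by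
  have hc := loop_smooth (E := E) (A := A) hpt hC b
  have h1 := dist_sq_le hc hst
  refine h1.trans (mul_le_mul_of_nonneg_left ?_ (by linarith))
  have hcont : Continuous fun x => sp E (fun t => C (A.φ b t)) x ^ 2 := (continuous_sp hc).pow 2
  have hi : ∀ a c, IntervalIntegrable (fun x => sp E (fun t => C (A.φ b t)) x ^ 2) volume a c :=
    fun a c => hcont.intervalIntegrable a c
  have hper : Function.Periodic (fun x => sp E (fun t => C (A.φ b t)) x ^ 2) 1 := fun x => by
    change sp E (fun t => C (A.φ b t)) (x + 1) ^ 2 = sp E (fun t => C (A.φ b t)) x ^ 2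
    rw [← qs_phi hpt hC, ← qs_phi hpt hC]
    have : x + 1 = x + ((1 : ℤ) : ℝ) := by simp
    rw [this, A.add_int]
  have h2 := hper.intervalIntegral_add_eq s 0
  rw [zero_add] at h2
  have h3 : ∫ x in s..t, sp E (fun t => C (A.φ b t)) x ^ 2 ≤
      ∫ x in s..(s + 1), sp E (fun t => C (A.φ b t)) x ^ 2 := by
    rw [← intervalIntegral.integral_add_adjacent_intervals (hi s t) (hi t (s + 1))]
    have : 0 ≤ ∫ x in t..(s + 1), sp E (fun t => C (A.φ b t)) x ^ 2 :=
      intervalIntegral.integral_nonneg hst1 fun x _ => sq_nonneg _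
    linarith
  exact h3.trans h2.le

end

end Vale.Agent.P231.S3U
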