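import Vale.Agent.P231.S3U.Nrm

/-!
# P231, stage 3, (U1)-(U4): the equivariant curve shortening across `2 D`
-/

set_option maxSynthPendingDepth 3
set_option linter.unusedSectionVars false
set_option linter.unusedVariables false

open Bundle Manifold Set Filter Module MeasureTheory
open scoped ContDiff Manifold Topology ENNReal

namespace Vale.Agent.P231.S3U

noncomputable section

open Vale.Agent.P234 hiding stp
open Vale.Agent.P231 Vale.Agent.P231.H775 Vale.Agent.P231.Fm Vale.Agent.P231.W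
open Vale.Agent.P231.WD3 Vale.Agent.P231.H766 Vale.Agent.P231.S3A

/-! ### rotated functions -/

section Rot

variable {B : Type*} {DB : Dif B} {A : CAct DB}

/-- the function `f`, rotated by `- k / (4 m)` of a turn -/
def rotf (m : ℕ) (k : ℕ) (f : B → ℂ) (b : B) : ℂ :=
  Complex.exp ((2 * Real.pi * (-(k / (4 * m))) : ℝ) * Complex.I) * f b

theorem rotf_map {m k : ℕ} {f : B → ℂ} (hf : DB.Map (Dif.lin ℂ) f) :
    DB.Map (Dif.lin ℂ) (rotf m k f) := by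
  intro V _ _ _ u x hu
  have h1 : Sm (fun y => f (u y)) x := hf hu
  change Sm (fun y => rotf m k f (u y)) x
  filter_upwards [h1] with y hy using contDiffAt_const.mul hy

theorem rotf_equi {m k : ℕ} {f : B → ℂ} (hf : Equi A f) : Equi A (rotf m k f) := by
  intro b t
  rw [rotf, rotf, hf]
  ring

theorem rotf_norm {m k : ℕ} (f : B → ℂ) (b : B) : ‖rotf m k f b‖ = ‖f b‖ := by
  rw [rotf, norm_mul, Complex.norm_exp_ofReal_mul_I, one_mul]

theorem rotf_ang {m k : ℕ} {f : B → ℂ} {b : B} {τ : ℝ} (h : Ang (f b) τ) :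
    Ang (rotf m k f b) (τ - k / (4 * m)) := by
  rw [Ang, rotf_norm, rotf]
  conv_lhs => rw [h]
  have h1 : ((2 * Real.pi * (τ - k / (4 * m)) : ℝ) : ℂ) * Complex.I =
      ((2 * Real.pi * (-(k / (4 * m))) : ℝ) : ℂ) * Complex.I +
        ((2 * Real.pi * τ : ℝ) : ℂ) * Complex.I := by
    push_cast
    ring
  rw [h1, Complex.exp_add]
  ring

end Rot

variable {E : Type*} [NormedAddCommGroup E] [NormedSpace ℝ E] [FiniteDimensional ℝ E]
  {M : Type*} [MetricSpace M] [ChartedSpace E M] [IsManifold 𝓘(ℝ, E) ∞ M]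
  [RiemannianBundle (fun x : M => TangentSpace 𝓘(ℝ, E) x)]
  [IsContMDiffRiemannianBundle 𝓘(ℝ, E) ∞ E (fun x : M => TangentSpace 𝓘(ℝ, E) x)]
  {e : ∀ x : M, TangentSpace 𝓘(ℝ, E) x → M}
  [CompactSpace M] [ConnectedSpace M] [IsRiemannianManifold 𝓘(ℝ, E) M]
  {B : Type*} {DB : Dif B} {A : CAct DB} {D : ℝ}

/-- the midpoint polygon, from the polygon curve -/
theorem next_pg {m : ℕ} [NeZero m] {C : B → M} {b : B} {z : ZMod m → M} {τ : ℝ}
    (h : ∀ t, C (A.φ b t) = pc e z (m * (τ + t))) {τ' : ℝ} (hτ : τ' = τ - 1 / (4 * m)) :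
    pg (m := m) (lpm m A C b τ') = Mp e z := by
  have hm0 : (m : ℝ) ≠ 0 := (Nat.cast_pos.2 (NeZero.pos m)).ne'
  funext i
  rw [pg, lpm, h, hτ]
  have h1 : (m : ℝ) * (τ + ((i.val : ℝ) / m - (τ - 1 / (4 * m)))) = ((i.val : ℤ) : ℝ) + 1 / 4 := by
    push_cast
    field_simp
    ring
  rw [h1, pc_quarter]
  congr 1
  push_cast
  exact ZMod.natCast_zmod_val i

/-- the sides of the polygon of a loop -/
theorem sd_pg_le {m : ℕ} [NeZero m] {C : B → M} {b : B} {S : ℝ}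
    (h : ∀ s t, s ≤ t → dist (C (A.φ b s)) (C (A.φ b t)) ≤ S * (t - s)) (τ : ℝ) (i : ZMod m) :
    sd (pg (m := m) (lpm m A C b τ)) i ≤ S / m := by
  have hm0 : (0 : ℝ) < m := Nat.cast_pos.2 (NeZero.pos m)
  have hper := lpm_per (A := A) (NeZero.pos m) C b τ
  have h1 := pg_int (m := m) hper (i.val : ℤ)
  have h2 := pg_int (m := m) hper ((i.val : ℤ) + 1)
  push_cast at h1 h2
  rw [ZMod.natCast_zmod_val] at h1 h2
  rw [sd, ← h1, ← h2, lpm, lpm]
  have h3 := h ((i.val : ℝ) / m - τ) (((i.val : ℝ) + 1) / m - τ) (by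
    have : (i.val : ℝ) / m ≤ ((i.val : ℝ) + 1) / m :=
      div_le_div_of_nonneg_right (by linarith) hm0.le
    linarith)
  refine h3.trans (le_of_eq ?_)
  field_simp
  ring

/-- **(U1)+(U2)** several substages with the same function -/
theorem steps (F : Facts e) (hD : 0 < D) (hB : InjGE e D) (hpt : Pts DB) {m : ℕ} [NeZero m]
    {K S : ℝ} (hK1 : 1 ≤ K) (hK : ∀ x y, |stp x - stp y| ≤ K * |x - y|) (hS : 0 ≤ S)
    (hSm : S / m < D) (h : (2 * K * S) ^ 2 < m * (D / 2) ^ 2) (k : ℕ) :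
    ∀ ρ : ℝ, 0 < ρ → ∃ ρ₁ : ℝ, 0 < ρ₁ ∧ ρ₁ ≤ ρ ∧ ∀ (f : B → ℂ), DB.Map (Dif.lin ℂ) f →
      Equi A f → ∀ δ : ℝ, 0 < δ →
      ∀ C : B → M, DB.Map (dM E M) C → ∃ C' : B → M,
        Hty (dM E M) A (vr A C) (Kc A C) C C' ∧
        (∀ b, NC e D 1 ρ₁ (fun t => C (A.φ b t)) → NC e D 1 ρ (fun t => C' (A.φ b t))) ∧
        ∀ b, δ ≤ ‖f b‖ →
          (∀ s t, s ≤ t → dist (C (A.φ b s)) (C (A.φ b t)) ≤ S * (t - s)) →
          ∀ τ, Ang (f b) τ → ∀ t, C' (A.φ b t) =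
            pc e ((Mp e)^[k] (pg (m := m) (lpm m A C b τ))) (m * ((τ - k / (4 * m)) + t)) := by
  have hm : 0 < m := NeZero.pos m
  have hm0 : (0 : ℝ) < m := Nat.cast_pos.2 hm
  have hKS : 0 ≤ 2 * K * S := by positivity
  induction k with
  | zero =>
    intro ρ hρ
    obtain ⟨ρ₁, h1, h2, h3⟩ := subM (A := A) F hD hB hpt hm hKS h hρ
    refine ⟨ρ₁, h1, h2, fun f hf hfe δ hδ C hC => ?_⟩
    obtain ⟨C', h4, h5, h6⟩ := h3 f hf hfe δ hδ C hC
    refine ⟨C', h4, h5, fun b hb hlip τ hτ t => ?_⟩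
    rw [h6 b hb (fun t => ?_) τ hτ t, Nat.cast_zero, zero_div, sub_zero,
      NlZ_eq_pc (lpm_per (A := A) hm C b τ)]
    · rfl
    · refine sp_le F hD hB (loop_smooth (E := E) (A := A) hpt hC b t) ?_
      filter_upwards [self_mem_nhdsWithin] with h hh
      have hpos : (0 : ℝ) < h := hh
      have h7 := hlip t (t + h) (by linarith)
      rw [add_sub_cancel_left] at h7
      refine h7.trans (mul_le_mul_of_nonneg_right ?_ hpos.le)
      nlinarith
  | succ k ih =>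
    intro ρ hρ
    obtain ⟨ρ₂, h1, h2, h3⟩ := subM (A := A) F hD hB hpt hm hKS h hρ
    obtain ⟨ρ₁, g1, g2, g3⟩ := ih ρ₂ h1
    refine ⟨ρ₁, g1, g2.trans h2, fun f hf hfe δ hδ C hC => ?_⟩
    obtain ⟨C₁, g4, g5, g6⟩ := g3 f hf hfe δ hδ C hC
    have hC₁ : DB.Map (dM E M) C₁ := g4.smooth_right
    have hfr : DB.Map (Dif.lin ℂ) (rotf m (k + 1) f) := rotf_map hf
    obtain ⟨C₂, h4, h5, h6⟩ := h3 (rotf m (k + 1) f) hfr (rotf_equi hfe) δ hδ C₁ hC₁
    refine ⟨C₂, Hty.step g4 h4, fun b hb => h5 b (g5 b hb), fun b hb hlip τ hτ t => ?_⟩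
    set z₀ := pg (m := m) (lpm m A C b τ) with hz₀
    have hloop : ∀ t, C₁ (A.φ b t) =
        pc e ((Mp e)^[k] z₀) (m * ((τ - k / (4 * m)) + t)) := g6 b hb hlip τ hτ
    have hmem : (Mp e)^[k] z₀ ∈ PS M m (S / m) (Pe z₀) :=
      Mp_iter_mem F hB hSm k ⟨fun i => sd_pg_le hlip τ i, le_rfl⟩
    have hang := rotf_ang (m := m) (k := k + 1) hτ
    rw [h6 b (by rw [rotf_norm]; exact hb) (fun t => ?_) _ hang t,
      NlZ_eq_pc (lpm_per (A := A) hm C₁ b _),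
      next_pg hloop (τ' := τ - ((k + 1 : ℕ) : ℝ) / (4 * m)) (by
        push_cast
        field_simp
        ring), Function.iterate_succ_apply']
    · -- the speed
      refine sp_le F hD hB (loop_smooth (E := E) (A := A) hpt hC₁ b t) ?_
      have h7 := lip_pc F hB hK1 hK hSm hmem.1 (m * ((τ - k / (4 * m)) + t))
      have h8 : Tendsto (fun h : ℝ => (m : ℝ) * h) (𝓝[>] 0) (𝓝[>] 0) := by
        refine tendsto_nhdsWithin_iff.2 ⟨?_, ?_⟩
        · have : Tendsto (fun h : ℝ => (m : ℝ) * h) (𝓝 0) (𝓝 (m * 0)) :=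
            (continuous_const.mul continuous_id).tendsto 0
          rw [mul_zero] at this
          exact this.mono_left nhdsWithin_le_nhds
        · filter_upwards [self_mem_nhdsWithin] with h hh
          have hpos : (0 : ℝ) < h := hh
          exact mul_pos hm0 hpos
      filter_upwards [h8.eventually h7] with h hh
      rw [hloop, hloop]
      have e1 : (m : ℝ) * ((τ - k / (4 * m)) + (t + h)) =
          m * ((τ - k / (4 * m)) + t) + m * h := by ring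
      rw [e1]
      refine hh.trans (le_of_eq ?_)
      field_simp

/-- **one stage** -/
theorem stage (F : Facts e) (hD : 0 < D) (hB : InjGE e D) (hdiam : ∀ p q : M, dist p q ≤ D)
    (hpt : Pts DB) {L₀ : ℝ} (hL0 : 0 ≤ L₀) (hL : L₀ < 4 * D) {ρ : ℝ} (hρ : 0 < ρ) :
    ∃ ρ₁ : ℝ, 0 < ρ₁ ∧ ρ₁ ≤ ρ ∧ ∃ γ : ℝ, 0 < γ ∧ γ ≤ 2 * D ∧
      ∀ (f : B → ℂ), DB.Map (Dif.lin ℂ) f → Equi A f → ∀ δ : ℝ, 0 < δ →
      ∀ C : B → M, DB.Map (dM E M) C → (∀ b, vr A C b ≤ ENNReal.ofReal L₀) → ∃ C' : B → M,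
        Hty (dM E M) A (vr A C) (Kc A C) C C' ∧
        (∀ b, NC e D 1 ρ₁ (fun t => C (A.φ b t)) → NC e D 1 ρ (fun t => C' (A.φ b t))) ∧
        ∀ b, δ ≤ ‖f b‖ → vr A C' b ≤ ENNReal.ofReal (2 * D - γ) ∨
          (NC e D 1 ρ (fun t => C' (A.φ b t)) ∧ vr A C' b ≤ ENNReal.ofReal (2 * D + ρ)) := by
  obtain ⟨K, hK1, hK⟩ := exists_lip_stp
  set S : ℝ := 4 * D with hS
  -- the number of vertices
  obtain ⟨m, hm⟩ := exists_nat_gt ((2 * K * S) ^ 2 / (D / 2) ^ 2)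
  have hKS : (256 : ℝ) ≤ (2 * K * S) ^ 2 / (D / 2) ^ 2 := by
    rw [le_div_iff₀ (by positivity), hS]
    nlinarith [mul_pos hD hD, mul_self_nonneg (K - 1)]
  have hm256 : (256 : ℝ) < m := hKS.trans_lt hm
  have hm0 : (0 : ℝ) < m := by linarith
  have hmpos : 0 < m := by exact_mod_cast hm0
  have : NeZero m := ⟨hmpos.ne'⟩
  have hmK : (2 * K * S) ^ 2 < m * (D / 2) ^ 2 := by
    rwa [div_lt_iff₀ (by positivity)] at hm
  have hSm : S / m < D := by
    rw [div_lt_iff₀ hm0, hS]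
    nlinarith
  -- the neighbourhoods
  obtain ⟨ρa, ha0, ha1, hmod⟩ := exists_mod (r₁ := 3 * D / 4) F hD hB (by linarith) hρ
  set ρw := min ρa (ρ / (2 * m)) with hρw
  have hρw0 : 0 < ρw := lt_min ha0 (by positivity)
  obtain ⟨N, E₁, hE0, hE1, hdich⟩ := dich_gap (m := m) F hD hB hdiam hSm hL
    (isOpen_Wn (e := e) (D := D) ρw) (fun v => gp_mem_Wn hρw0 v)
  obtain ⟨ρ₁, h1, h2, h3⟩ := steps (A := A) F hD hB hpt (m := m) hK1 hK (by positivity) hSm hmK N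
    ρ hρ
  -- the gap
  have hsq : m * E₁ < (2 * D) ^ 2 := by
    rw [lt_div_iff₀ hm0] at hE1
    linarith
  have hsqrt : Real.sqrt (m * E₁) < 2 * D := by
    rw [Real.sqrt_lt' (by positivity)]
    exact hsq
  refine ⟨ρ₁, h1, h2, 2 * D - Real.sqrt (m * E₁), by linarith,
    by linarith [Real.sqrt_nonneg (m * E₁)], ?_⟩
  intro f hf hfe δ hδ C hC hlen
  have hε : 0 < 4 * D - L₀ := by linarith
  obtain ⟨C₁, n1, n2, n3⟩ := normalise (A := A) F hD hB hpt hC hε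
  have hC₁ : DB.Map (dM E M) C₁ := n1.smooth_right
  obtain ⟨C₂, h4, h5, h6⟩ := h3 f hf hfe δ hδ C₁ hC₁
  refine ⟨C₂, Hty.step n1 h4, fun b hb => h5 b ?_, fun b hb => ?_⟩
  · obtain ⟨ψ, p1, p2, p3, p4⟩ := n3 b
    have h7 : (fun t => C₁ (A.φ b t)) = fun t => C (A.φ b (ψ t)) := funext p4
    rw [h7]
    exact hb.reparam p1 p2 p3
  · have hvr : (vr A C b).toReal ≤ L₀ :=
      ENNReal.toReal_le_of_le_ofReal hL0 (hlen b)
    have hlip : ∀ s t, s ≤ t → dist (C₁ (A.φ b s)) (C₁ (A.φ b t)) ≤ S * (t - s) := fun s t hst =>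
      (n2 b s t hst).trans (mul_le_mul_of_nonneg_right (by linarith) (by linarith))
    set τ := ang (f b) with hτ
    set z₀ := pg (m := m) (lpm m A C₁ b τ) with hz₀
    have hloop : ∀ t, C₂ (A.φ b t) =
        pc e ((Mp e)^[N] z₀) (m * ((τ - N / (4 * m)) + t)) := h6 b hb hlip τ (Ang_ang _)
    have hPe : Pe z₀ ≤ L₀ := by
      have k1 := Pe_pg_le (m := m) (lpm_per (A := A) hmpos C₁ b τ)
      rw [var_lpm hmpos] at k1
      have k2 : ENNReal.ofReal (Pe z₀) ≤ ENNReal.ofReal L₀ :=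
        k1.trans ((vr_mono n1 b).trans (hlen b))
      exact (ENNReal.ofReal_le_ofReal_iff hL0).1 k2
    have hz : z₀ ∈ PS M m (S / m) L₀ := ⟨fun i => sd_pg_le hlip τ i, hPe⟩
    have hmem : (Mp e)^[N] z₀ ∈ PS M m (S / m) L₀ := Mp_iter_mem F hB hSm N hz
    set z := (Mp e)^[N] z₀ with hzdef
    have hvar : vr A C₂ b ≤ ENNReal.ofReal (Pe z) := by
      have k1 : (fun t => C₂ (A.φ b t)) = fun t => pc e z (m * ((τ - N / (4 * m)) + t)) :=
        funext hloop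
      unfold vr
      rw [k1, var_loop hmpos (pc_per z)]
      exact var_pc_le F hB fun i => (hmem.1 i).trans_lt hSm
    rcases hdich z₀ hz with h7 | h7
    · left
      refine hvar.trans (ENNReal.ofReal_le_ofReal ?_)
      have k1 := Pe_sq_le z
      have k2 : Pe z ^ 2 ≤ m * E₁ := k1.trans (mul_le_mul_of_nonneg_left h7 hm0.le)
      have k3 : Pe z ≤ Real.sqrt (m * E₁) := Real.le_sqrt_of_sq_le k2
      linarith
    · right
      constructor
      · have k1 : NC e D (m : ℝ) ρ (pc e z) := NC_pc F hD hB hdiam hρw0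
          (fun v a b x y l q1 q2 q3 q4 => hmod v a b x y l q1
            (q2.trans_le (min_le_left _ _)) (q3.trans_le (min_le_left _ _)) q4)
          ((min_le_left _ _).trans ha1) (by
            rw [div_le_iff₀ hm0]
            nlinarith) h7
        have k2 := k1.reparam (p := 1) (β := fun t => (m : ℝ) * ((τ - N / (4 * m)) + t))
          (continuous_const.mul (continuous_const.add continuous_id))
          (fun x y hxy => mul_le_mul_of_nonneg_left (by linarith) hm0.le) (fun x => by ring)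
        have k3 : (fun t => C₂ (A.φ b t)) = fun t => pc e z (m * ((τ - N / (4 * m)) + t)) :=
          funext hloop
        rw [k3]
        exact k2
      · refine hvar.trans (ENNReal.ofReal_le_ofReal ?_)
        have k1 := Pe_Wn F hD hB hdiam (by
          rw [div_le_iff₀ hm0]
          nlinarith) h7
        have k2 : 2 * m * ρw ≤ ρ := by
          have k3 : ρw ≤ ρ / (2 * m) := min_le_right _ _
          calc 2 * m * ρw ≤ 2 * m * (ρ / (2 * m)) :=
                mul_le_mul_of_nonneg_left k3 (by positivity)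
            _ = ρ := by field_simp
        linarith

/-- **(U3)** all stages -/
theorem stages (F : Facts e) (hD : 0 < D) (hB : InjGE e D) (hdiam : ∀ p q : M, dist p q ≤ D)
    (hpt : Pts DB) {L₀ : ℝ} (hL0 : 0 ≤ L₀) (hL : L₀ < 4 * D) {δ : ℝ} (hδ : 0 < δ)
    (L : List (B → ℂ)) (hf : ∀ f ∈ L, DB.Map (Dif.lin ℂ) f ∧ Equi A f) :
    ∀ ρ : ℝ, 0 < ρ → ∃ γ : ℝ, 0 < γ ∧ γ ≤ 2 * D ∧
      ∀ C : B → M, DB.Map (dM E M) C → (∀ b, vr A C b ≤ ENNReal.ofReal L₀) → ∃ C' : B → M,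
        Hty (dM E M) A (vr A C) (Kc A C) C C' ∧
        ∀ b, (∃ f ∈ L, δ ≤ ‖f b‖) → vr A C' b ≤ ENNReal.ofReal (2 * D - γ) ∨
          (NC e D 1 ρ (fun t => C' (A.φ b t)) ∧ vr A C' b ≤ ENNReal.ofReal (2 * D + ρ)) := by
  induction L with
  | nil =>
    intro ρ hρ
    exact ⟨D, hD, by linarith, fun C hC hlen => ⟨C, Hty.refl hC fun b => le_rfl,
      fun b ⟨f, hf, _⟩ => absurd hf (by simp)⟩⟩
  | cons f L ih =>
    intro ρ hρ
    obtain ⟨ρ₁, h1, h2, γ₁, h3, h3', h4⟩ := stage (A := A) F hD hB hdiam hpt hL0 hL hρ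
    obtain ⟨γ₂, g1, g1', g2⟩ := ih (fun f' hf' => hf f' (List.mem_cons_of_mem _ hf')) ρ₁ h1
    refine ⟨min γ₁ γ₂, lt_min h3 g1, (min_le_left _ _).trans h3', fun C hC hlen => ?_⟩
    obtain ⟨C₁, g3, g4⟩ := g2 C hC hlen
    have hC₁ : DB.Map (dM E M) C₁ := g3.smooth_right
    obtain ⟨hf1, hf2⟩ := hf f List.mem_cons_self
    obtain ⟨C₂, h5, h6, h7⟩ := h4 f hf1 hf2 δ hδ C₁ hC₁ fun b => (vr_mono g3 b).trans (hlen b)
    refine ⟨C₂, Hty.step g3 h5, fun b hb => ?_⟩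
    have hle : ∀ γ, min γ₁ γ₂ ≤ γ → ENNReal.ofReal (2 * D - γ) ≤
        ENNReal.ofReal (2 * D - min γ₁ γ₂) := fun γ hγ => ENNReal.ofReal_le_ofReal (by linarith)
    obtain ⟨f', hf', hb'⟩ := hb
    rcases List.mem_cons.1 hf' with h8 | h8
    · rw [h8] at hb'
      rcases h7 b hb' with h9 | h9
      · exact Or.inl (h9.trans (hle _ (min_le_left _ _)))
      · exact Or.inr h9
    · rcases g4 b ⟨f', h8, hb'⟩ with h9 | h9
      · exact Or.inl ((vr_mono h5 b).trans (h9.trans (hle _ (min_le_right _ _))))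
      · exact Or.inr ⟨h6 b h9.1, (vr_mono h5 b).trans (h9.2.trans
          (ENNReal.ofReal_le_ofReal (by linarith)))⟩

/-- a bound of the speed bounds the energy -/
theorem Eb_le (hpt : Pts DB) {C : B → M} (hC : DB.Map (dM E M) C) {b : B} {K : ℝ}
    (h : ∀ t, sp E (fun t => C (A.φ b t)) t ≤ K) : Eb E A C b ≤ K ^ 2 := by
  have hc := loop_smooth (E := E) (A := A) hpt hC b
  unfold Eb
  have h2 : ∫ x in (0 : ℝ)..1, sp E (fun t => C (A.φ b t)) x ^ 2 ≤ ∫ x in (0 : ℝ)..1, K ^ 2 :=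
    intervalIntegral.integral_mono_on zero_le_one
      (((continuous_sp hc).pow 2).intervalIntegrable _ _) intervalIntegrable_const
      fun x _ => pow_le_pow_left₀ (sp_nonneg _ x) (h x) 2
  rw [intervalIntegral.integral_const] at h2
  simpa using h2

/-- **The equivariant curve shortening across `2 D`**, for a family covered by finitely many
equivariant functions. All loops of `C` have variation at most `L₀ < 4 D`. There is an equivariant
homotopy, not increasing the variation of the loops and fixing the constant ones, to a family `C'`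
with the following property: every loop of `C'` has speed at most `2 D - γ`, or it has speed at
most `2 D + ρ` and is `ρ`-close to a closed geodesic. -/
theorem shorten (F : Facts e) (hD : 0 < D) (hB : InjGE e D) (hdiam : ∀ p q : M, dist p q ≤ D)
    (hpt : Pts DB) {L₀ : ℝ} (hL0 : 0 ≤ L₀) (hL : L₀ < 4 * D) {δ : ℝ} (hδ : 0 < δ)
    (L : List (B → ℂ)) (hf : ∀ f ∈ L, DB.Map (Dif.lin ℂ) f ∧ Equi A f)
    (hcov : ∀ b, ∃ f ∈ L, δ ≤ ‖f b‖) {ρ : ℝ} (hρ : 0 < ρ) :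
    ∃ γ : ℝ, 0 < γ ∧ γ < 2 * D ∧ ∀ C : B → M, DB.Map (dM E M) C →
      (∀ b, vr A C b ≤ ENNReal.ofReal L₀) → ∃ C' : B → M,
        Hty (dM E M) A (vr A C) (Kc A C) C C' ∧
        ∀ b, (∀ t, sp E (fun t => C' (A.φ b t)) t ≤ 2 * D - γ) ∨
          ((∀ t, sp E (fun t => C' (A.φ b t)) t ≤ 2 * D + ρ) ∧ S3R.Cl e D A C' ρ b) := by
  set ρ₂ := min (ρ / 11) (D / 20) with hρ₂
  have hρ₂0 : 0 < ρ₂ := lt_min (by positivity) (by positivity)
  have hρ₂1 : ρ₂ ≤ ρ / 11 := min_le_left _ _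
  have hρ₂2 : ρ₂ ≤ D / 20 := min_le_right _ _
  obtain ⟨γ, hγ0, hγ1, hst⟩ := stages (A := A) F hD hB hdiam hpt hL0 hL hδ L hf ρ₂ hρ₂0
  refine ⟨γ / 2, by linarith, by linarith, fun C hC hlen => ?_⟩
  obtain ⟨C₁, h1, h2⟩ := hst C hC hlen
  have hC₁ : DB.Map (dM E M) C₁ := h1.smooth_right
  have hε : 0 < min (γ / 2) ρ₂ := lt_min (by linarith) hρ₂0
  obtain ⟨C₂, n1, n2, n3⟩ := normalise (A := A) F hD hB hpt hC₁ hε
  have hC₂ : DB.Map (dM E M) C₂ := n1.smooth_right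
  refine ⟨C₂, Hty.step h1 n1, fun b => ?_⟩
  have hsp : ∀ K : ℝ, (vr A C₁ b).toReal + min (γ / 2) ρ₂ ≤ K →
      (∀ s t, s ≤ t → dist (C₂ (A.φ b s)) (C₂ (A.φ b t)) ≤ K * (t - s)) ∧
      ∀ t, sp E (fun t => C₂ (A.φ b t)) t ≤ K := by
    intro K hK
    have h3 : ∀ s t, s ≤ t → dist (C₂ (A.φ b s)) (C₂ (A.φ b t)) ≤ K * (t - s) := fun s t hst =>
      (n2 b s t hst).trans (mul_le_mul_of_nonneg_right hK (by linarith))
    refine ⟨h3, fun t => sp_le F hD hB (loop_smooth (E := E) (A := A) hpt hC₂ b t) ?_⟩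
    filter_upwards [self_mem_nhdsWithin] with h hh
    have hpos : (0 : ℝ) < h := hh
    have h4 := h3 t (t + h) (by linarith)
    rw [add_sub_cancel_left] at h4
    exact h4
  rcases h2 b (hcov b) with h3 | ⟨h3, h4⟩
  · left
    have h5 : (vr A C₁ b).toReal ≤ 2 * D - γ := ENNReal.toReal_le_of_le_ofReal (by linarith) h3
    exact (hsp _ (by linarith [min_le_left (γ / 2) ρ₂])).2
  · right
    have h5 : (vr A C₁ b).toReal ≤ 2 * D + ρ₂ :=
      ENNReal.toReal_le_of_le_ofReal (by linarith) h4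
    obtain ⟨h6, h7⟩ := hsp (2 * D + 2 * ρ₂) (by linarith [min_le_right (γ / 2) ρ₂])
    refine ⟨fun t => (h7 t).trans (by linarith), ?_⟩
    have h8 : NC e D 1 ρ₂ (fun t => C₂ (A.φ b t)) := by
      obtain ⟨ψ, p1, p2, p3, p4⟩ := n3 b
      have h7 : (fun t => C₂ (A.φ b t)) = fun t => C₁ (A.φ b (ψ t)) := funext p4
      rw [h7]
      exact h3.reparam p1 p2 p3
    refine (Cl_of_NC F hD hB hdiam (ρ := ρ₂) (η := 2 * ρ₂) (by linarith) (by linarith) h8
      h6).mono ?_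
    linarith

/-- the same, with energies -/
theorem shorten_Eb (F : Facts e) (hD : 0 < D) (hB : InjGE e D) (hdiam : ∀ p q : M, dist p q ≤ D)
    (hpt : Pts DB) {L₀ : ℝ} (hL0 : 0 ≤ L₀) (hL : L₀ < 4 * D) {δ : ℝ} (hδ : 0 < δ)
    (L : List (B → ℂ)) (hf : ∀ f ∈ L, DB.Map (Dif.lin ℂ) f ∧ Equi A f)
    (hcov : ∀ b, ∃ f ∈ L, δ ≤ ‖f b‖) {ρ : ℝ} (hρ : 0 < ρ) :
    ∃ γ : ℝ, 0 < γ ∧ ∀ C : B → M, DB.Map (dM E M) C →
      (∀ b, vr A C b ≤ ENNReal.ofReal L₀) → ∃ C' : B → M,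
        Hty (dM E M) A (vr A C) (Kc A C) C C' ∧
        ∀ b, Eb E A C' b ≤ (2 * D) ^ 2 - γ ∨
          (Eb E A C' b ≤ (2 * D) ^ 2 + ρ ∧ S3R.Cl e D A C' ρ b) := by
  set ρ₂ := min ρ (min D (ρ / (5 * D))) with hρ₂
  have hρ₂0 : 0 < ρ₂ := lt_min hρ (lt_min hD (by positivity))
  have e1 : ρ₂ ≤ ρ := min_le_left _ _
  have e2 : ρ₂ ≤ D := (min_le_right _ _).trans (min_le_left _ _)
  have e3 : ρ₂ ≤ ρ / (5 * D) := (min_le_right _ _).trans (min_le_right _ _)
  obtain ⟨γ, hγ0, hγ1, h⟩ := shorten (A := A) F hD hB hdiam hpt hL0 hL hδ L hf hcov hρ₂0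
  refine ⟨(2 * D) ^ 2 - (2 * D - γ) ^ 2, by nlinarith, fun C hC hlen => ?_⟩
  obtain ⟨C', h1, h2⟩ := h C hC hlen
  have hC' : DB.Map (dM E M) C' := h1.smooth_right
  refine ⟨C', h1, fun b => ?_⟩
  rcases h2 b with h3 | ⟨h3, h4⟩
  · left
    have := Eb_le hpt hC' h3
    linarith
  · right
    refine ⟨?_, h4.mono e1⟩
    have h5 := Eb_le hpt hC' h3
    have h6 : ρ₂ * (5 * D) ≤ ρ := (le_div_iff₀ (by positivity)).1 e3
    nlinarith

end

end Vale.Agent.P231.S3U
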