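import Vale.Agent.P231.S3U.Cell
import Vale.Agent.P231.S3R.Stage

/-!
# P231, stage 3, (U3): curves near closed geodesics, in any monotone parametrisation
-/

set_option maxSynthPendingDepth 3
set_option linter.unusedSectionVars false
set_option linter.unusedVariables false

open Bundle Manifold Set Filter Module
open scoped ContDiff Manifold Topology

namespace Vale.Agent.P231.S3U

noncomputable section

open Vale.Agent.P234 Vale.Agent.P231 Vale.Agent.P231.H775 Vale.Agent.P231.Fm Vale.Agent.P231.W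
open Vale.Agent.P231.WD3 Vale.Agent.P231.H766

variable {E : Type*} [NormedAddCommGroup E] [NormedSpace ℝ E] [FiniteDimensional ℝ E]
  {M : Type*} [MetricSpace M] [ChartedSpace E M] [IsManifold 𝓘(ℝ, E) ∞ M]
  [RiemannianBundle (fun x : M => TangentSpace 𝓘(ℝ, E) x)]
  [IsContMDiffRiemannianBundle 𝓘(ℝ, E) ∞ E (fun x : M => TangentSpace 𝓘(ℝ, E) x)]
  {e : ∀ x : M, TangentSpace 𝓘(ℝ, E) x → M}

/-- the curve `c` is `ρ`-close to a monotone parametrisation of a closed geodesic -/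
def NC (e : ∀ x : M, TangentSpace 𝓘(ℝ, E) x → M) (D p ρ : ℝ) (c : ℝ → M) : Prop :=
  ∃ (v : UT E M) (θ : ℝ → ℝ), Continuous θ ∧ Monotone θ ∧ (∀ x, θ (x + p) = θ x + 1) ∧
    ∀ x, dist (c x) (gm e (v, 2 * D * θ x)) < ρ

theorem NC.mono {D p ρ ρ' : ℝ} {c : ℝ → M} (h : NC e D p ρ c) (hρ : ρ ≤ ρ') : NC e D p ρ' c := by
  obtain ⟨v, θ, h1, h2, h3, h4⟩ := h
  exact ⟨v, θ, h1, h2, h3, fun x => (h4 x).trans_le hρ⟩

theorem NC.reparam {D p q ρ : ℝ} {c : ℝ → M} (h : NC e D q ρ c) {β : ℝ → ℝ} (hβ : Continuous β)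
    (hm : Monotone β) (hp : ∀ x, β (x + p) = β x + q) : NC e D p ρ (fun x => c (β x)) := by
  obtain ⟨v, θ, h1, h2, h3, h4⟩ := h
  exact ⟨v, fun x => θ (β x), h1.comp hβ, h2.comp hm, fun x => by
    change θ (β (x + p)) = θ (β x) + 1
    rw [hp, h3], fun x => h4 _⟩

variable [CompactSpace M] [ConnectedSpace M] [IsRiemannianManifold 𝓘(ℝ, E) M] {D : ℝ}

/-- the interpolation is continuous -/
theorem continuousAt_gG (F : Facts e) (hB : InjGE e D) {p : (M × M) × ℝ}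
    (hp : dist p.1.1 p.1.2 < D) :
    ContinuousAt (fun p : (M × M) × ℝ => gG e p.1.1 p.1.2 p.2) p := by
  obtain ⟨⟨x, y⟩, r⟩ := p
  set z₀ : E × E × ℝ := (extChartAt 𝓘(ℝ, E) x x, extChartAt 𝓘(ℝ, E) y y, r) with hz₀
  have hx : ContMDiffAt 𝓘(ℝ, E × E × ℝ) 𝓘(ℝ, E) ∞
      (fun z : E × E × ℝ => (extChartAt 𝓘(ℝ, E) x).symm z.1) z₀ := by
    have h1 : ContMDiffAt 𝓘(ℝ, E) 𝓘(ℝ, E) ∞ (extChartAt 𝓘(ℝ, E) x).symm (extChartAt 𝓘(ℝ, E) x x) :=
      (contMDiffOn_extChartAt_symm x).contMDiffAt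
        ((isOpen_extChartAt_target x).mem_nhds (mem_extChartAt_target x))
    exact ContMDiffAt.comp z₀ (g := (extChartAt 𝓘(ℝ, E) x).symm) (f := fun z : E × E × ℝ => z.1) h1
      contDiffAt_fst.contMDiffAt
  have hy : ContMDiffAt 𝓘(ℝ, E × E × ℝ) 𝓘(ℝ, E) ∞
      (fun z : E × E × ℝ => (extChartAt 𝓘(ℝ, E) y).symm z.2.1) z₀ := by
    have h1 : ContMDiffAt 𝓘(ℝ, E) 𝓘(ℝ, E) ∞ (extChartAt 𝓘(ℝ, E) y).symm (extChartAt 𝓘(ℝ, E) y y) :=
      (contMDiffOn_extChartAt_symm y).contMDiffAt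
        ((isOpen_extChartAt_target y).mem_nhds (mem_extChartAt_target y))
    exact ContMDiffAt.comp z₀ (g := (extChartAt 𝓘(ℝ, E) y).symm)
      (f := fun z : E × E × ℝ => z.2.1) h1 (contDiffAt_fst.comp z₀ contDiffAt_snd).contMDiffAt
  have hr : ContDiffAt ℝ ∞ (fun z : E × E × ℝ => z.2.2) z₀ :=
    contDiffAt_snd.comp z₀ contDiffAt_snd
  have e1 : (extChartAt 𝓘(ℝ, E) x).symm (extChartAt 𝓘(ℝ, E) x x) = x := extChartAt_to_inv x
  have e2 : (extChartAt 𝓘(ℝ, E) y).symm (extChartAt 𝓘(ℝ, E) y y) = y := extChartAt_to_inv y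
  have hd : dist ((extChartAt 𝓘(ℝ, E) x).symm z₀.1) ((extChartAt 𝓘(ℝ, E) y).symm z₀.2.1) < D := by
    rw [hz₀]
    change dist ((extChartAt 𝓘(ℝ, E) x).symm (extChartAt 𝓘(ℝ, E) x x))
      ((extChartAt 𝓘(ℝ, E) y).symm (extChartAt 𝓘(ℝ, E) y y)) < D
    rw [e1, e2]
    exact hp
  have h1 := (contMDiffAt_gG F hB hx hy hr hd).continuousAt
  have h2 : ContinuousAt (fun p : (M × M) × ℝ =>
      ((extChartAt 𝓘(ℝ, E) x p.1.1, extChartAt 𝓘(ℝ, E) y p.1.2, p.2) : E × E × ℝ))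
      ((x, y), r) := by
    refine ContinuousAt.prodMk ?_ (ContinuousAt.prodMk ?_ continuousAt_snd)
    · exact ContinuousAt.comp (g := extChartAt 𝓘(ℝ, E) x) (f := fun p : (M × M) × ℝ => p.1.1)
        (continuousAt_extChartAt x) (continuous_fst.comp continuous_fst).continuousAt
    · exact ContinuousAt.comp (g := extChartAt 𝓘(ℝ, E) y) (f := fun p : (M × M) × ℝ => p.1.2)
        (continuousAt_extChartAt y) (continuous_snd.comp continuous_fst).continuousAt
  have h3 := ContinuousAt.comp (g := fun z : E × E × ℝ =>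
    gG e ((extChartAt 𝓘(ℝ, E) x).symm z.1) ((extChartAt 𝓘(ℝ, E) y).symm z.2.1) z.2.2)
    (f := fun p : (M × M) × ℝ =>
      ((extChartAt 𝓘(ℝ, E) x p.1.1, extChartAt 𝓘(ℝ, E) y p.1.2, p.2) : E × E × ℝ))
    (x := ((x, y), r)) h1 h2
  refine h3.congr ?_
  have s1 : ∀ᶠ p : (M × M) × ℝ in 𝓝 ((x, y), r), p.1.1 ∈ (extChartAt 𝓘(ℝ, E) x).source :=
    (continuous_fst.comp continuous_fst).continuousAt.eventually
      ((isOpen_extChartAt_source x).mem_nhds (mem_extChartAt_source x))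
  have s2 : ∀ᶠ p : (M × M) × ℝ in 𝓝 ((x, y), r), p.1.2 ∈ (extChartAt 𝓘(ℝ, E) y).source :=
    (continuous_snd.comp continuous_fst).continuousAt.eventually
      ((isOpen_extChartAt_source y).mem_nhds (mem_extChartAt_source y))
  filter_upwards [s1, s2] with p hp1 hp2
  change gG e ((extChartAt 𝓘(ℝ, E) x).symm (extChartAt 𝓘(ℝ, E) x p.1.1))
    ((extChartAt 𝓘(ℝ, E) y).symm (extChartAt 𝓘(ℝ, E) y p.1.2)) p.2 = _
  rw [(extChartAt 𝓘(ℝ, E) x).left_inv hp1, (extChartAt 𝓘(ℝ, E) y).left_inv hp2]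

/-- the interpolation of points near a geodesic is near the geodesic, uniformly -/
theorem exists_mod (F : Facts e) (hD : 0 < D) (hB : InjGE e D) {r₁ : ℝ} (hr : r₁ < D) {ρ' : ℝ}
    (hρ' : 0 < ρ') : ∃ ρ : ℝ, 0 < ρ ∧ ρ ≤ ρ' ∧ ∀ (v : UT E M) (a b : ℝ) (x y : M) (l : ℝ),
      |2 * D * (b - a)| ≤ r₁ → dist x (gm e (v, 2 * D * a)) < ρ →
      dist y (gm e (v, 2 * D * b)) < ρ → l ∈ Icc (0 : ℝ) 1 →
      dist (gG e x y l) (gm e (v, 2 * D * (a + l * (b - a)))) < ρ' := by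
  set K : Set ((M × M) × ℝ) := {p | dist p.1.1 p.1.2 ≤ (r₁ + D) / 2} ∩ (univ ×ˢ Icc (0 : ℝ) 1)
    with hK
  have hKc : IsCompact K := by
    refine (isCompact_univ.prod isCompact_Icc).inter_left (isClosed_le ?_ continuous_const)
    exact (continuous_fst.comp continuous_fst).dist (continuous_snd.comp continuous_fst)
  have hcont : ContinuousOn (fun p : (M × M) × ℝ => gG e p.1.1 p.1.2 p.2) K := fun p hp =>
    (continuousAt_gG F hB (hp.1.trans_lt (by linarith))).continuousWithinAt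
  have huc := hKc.uniformContinuousOn_of_continuous hcont
  obtain ⟨δ, hδ, hδ2⟩ := Metric.uniformContinuousOn_iff.1 huc ρ' hρ'
  refine ⟨min (min δ ρ') ((D - r₁) / 4), by
    refine lt_min (lt_min hδ hρ') (by linarith), (min_le_left _ _).trans (min_le_right _ _), ?_⟩
  intro v a b x y l hab hx hy hl
  have hx1 := hx.trans_le ((min_le_left _ _).trans (min_le_left _ _))
  have hy1 := hy.trans_le ((min_le_left _ _).trans (min_le_left _ _))
  have hx2 := hx.trans_le (min_le_right _ _)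
  have hy2 := hy.trans_le (min_le_right _ _)
  have e0 : 2 * D * b - 2 * D * a = 2 * D * (b - a) := by ring
  have hg : dist (gm e (v, 2 * D * a)) (gm e (v, 2 * D * b)) ≤ r₁ := by
    rw [S3R.dist_gm_gm F hB v (by rw [e0]; linarith), e0]
    exact hab
  have hxy : dist x y ≤ (r₁ + D) / 2 := by
    have h1 := dist_triangle4 x (gm e (v, 2 * D * a)) (gm e (v, 2 * D * b)) y
    rw [dist_comm (gm e (v, 2 * D * b)) y] at h1
    linarith
  have h1 := hδ2 ((x, y), l) ⟨hxy, trivial, hl⟩ ((gm e (v, 2 * D * a), gm e (v, 2 * D * b)), l)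
    ⟨hg.trans (by linarith), trivial, hl⟩ (by
      rw [Prod.dist_eq, Prod.dist_eq, dist_self]
      exact max_lt (max_lt hx1 hy1) hδ)
  have h2 : gG e (gm e (v, 2 * D * a)) (gm e (v, 2 * D * b)) l =
      gm e (v, 2 * D * (a + l * (b - a))) := by
    have h3 := gG_gam F hB (nm_vec' v) (s := 2 * D * a) (t := 2 * D * b)
      (by rw [e0]; linarith) l
    refine Eq.trans h3 ?_
    change gam e (foot v) (vec' v) _ = gam e (foot v) (vec' v) _
    congr 1
    ring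
  rw [← h2]
  exact h1

/-- the matched arcs of the geodesic are short -/
theorem arc_le (F : Facts e) (hB : InjGE e D) (hD : 0 < D) {c : ℝ → M} {v : UT E M}
    {θ : ℝ → ℝ} (hθ : Continuous θ) (hm : Monotone θ) {ρ r₀ r₁ : ℝ}
    (h : ∀ x, dist (c x) (gm e (v, 2 * D * θ x)) < ρ) (hr : r₀ + 2 * ρ ≤ r₁) (hr₁ : r₁ < D)
    {a s : ℝ} (hs : 0 ≤ s) (hc : ∀ s' ∈ Icc (0 : ℝ) s, dist (c a) (c (a + s')) ≤ r₀) :
    |2 * D * (θ (a + s) - θ a)| ≤ r₁ := by
  have h0 : θ a ≤ θ (a + s) := hm (by linarith)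
  rw [abs_of_nonneg (mul_nonneg (by linarith) (sub_nonneg.2 h0))]
  by_contra hneg
  push Not at hneg
  obtain ⟨r, hr2, hr3⟩ : ∃ r, r₁ < r ∧ r ≤ min D (2 * D * (θ (a + s) - θ a)) :=
    ⟨min D (2 * D * (θ (a + s) - θ a)), lt_min hr₁ hneg, le_rfl⟩
  have hr4 := hr3.trans (min_le_left _ _)
  have hr5 := hr3.trans (min_le_right _ _)
  have hρ : 0 < ρ := dist_nonneg.trans_lt (h a)
  have hr₀ : 0 ≤ r₀ := by
    have := hc 0 ⟨le_rfl, hs⟩
    rw [add_zero, dist_self] at this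
    exact this
  have hcont : ContinuousOn (fun s' => 2 * D * (θ (a + s') - θ a)) (Icc 0 s) :=
    (continuous_const.mul ((hθ.comp (continuous_const.add continuous_id)).sub
      continuous_const)).continuousOn
  obtain ⟨s', hs', hs2⟩ := intermediate_value_Icc hs hcont
    ⟨by simp only [add_zero, sub_self, mul_zero]; linarith, hr5⟩
  have hs3 : 2 * D * θ (a + s') - 2 * D * θ a = r := by
    rw [← hs2]
    ring
  have h1 := S3R.dist_gm_gm F hB v (s := 2 * D * θ a) (t := 2 * D * θ (a + s'))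
    (by rw [hs3, abs_of_pos (by linarith)]; exact hr4)
  rw [hs3, abs_of_pos (by linarith)] at h1
  have h2 := dist_triangle4 (gm e (v, 2 * D * θ a)) (c a) (c (a + s'))
    (gm e (v, 2 * D * θ (a + s')))
  have h3 := h a
  rw [dist_comm] at h3
  have h4 := h (a + s')
  have h5 := hc s' hs'
  linarith

/-- the cell operation preserves closeness -/
theorem NC_NlZ {ρ ρ' r₁ : ℝ}
    (hmod : ∀ (v : UT E M) (a b : ℝ) (x y : M) (l : ℝ),
      |2 * D * (b - a)| ≤ r₁ → dist x (gm e (v, 2 * D * a)) < ρ →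
      dist y (gm e (v, 2 * D * b)) < ρ → l ∈ Icc (0 : ℝ) 1 →
      dist (gG e x y l) (gm e (v, 2 * D * (a + l * (b - a)))) < ρ') (hρ : ρ ≤ ρ')
    {m : ℤ} {c : ℝ → M} {v : UT E M} {θ : ℝ → ℝ} (h1 : Continuous θ) (h2 : Monotone θ)
    (h3 : ∀ x, θ (x + m) = θ x + 1) (h4 : ∀ x, dist (c x) (gm e (v, 2 * D * θ x)) < ρ)
    {s : ℝ} (hs : s ∈ Icc (0 : ℝ) 1) (harc : ∀ n : ℤ, |2 * D * (θ (n + s) - θ n)| ≤ r₁) :
    NC e D m ρ' (NlZ (gG e) c s) := by
  refine ⟨v, NlZ G₀ θ s, continuous_NlZ_G₀ h1 s, monotone_NlZ_G₀ h2 hs,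
    fun x => NlZ_G₀_add h3 s x, fun x => ?_⟩
  rw [NlZ, NlZ]
  split_ifs with h
  · exact hmod v _ _ _ _ _ (harc _) (h4 _) (h4 _) (stp_mem _)
  · exact (h4 _).trans_le hρ

/-- nearly unit speed and closeness in some parametrisation give closeness in the standard one -/
theorem Cl_of_NC (F : Facts e) (hD : 0 < D) (hB : InjGE e D)
    (hdiam : ∀ p q : M, dist p q ≤ D) {B : Type*} {DB : Dif B}
    {A : CAct DB} {C : B → M} {b : B} {ρ η : ℝ} (hη0 : 0 ≤ η)
    (hsmall : (2 * D + η) / 4 + 2 * ρ < D)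
    (h : NC e D 1 ρ (fun t => C (A.φ b t)))
    (hlip : ∀ s t, s ≤ t → dist (C (A.φ b s)) (C (A.φ b t)) ≤ (2 * D + η) * (t - s)) :
    S3R.Cl e D A C (9 * ρ + η) b := by
  obtain ⟨v, θ, h1, h2, h3, h4⟩ := h
  have h4' : ∀ t, dist (C (A.φ b t)) (gm e (v, 2 * D * θ t)) < ρ := h4
  have hρ : 0 < ρ := dist_nonneg.trans_lt (h4' 0)
  -- upper bound on a quarter
  have hq : ∀ t u, t ≤ u → u ≤ t + 1 / 4 → 2 * D * (θ u - θ t) ≤ (2 * D + η) * (u - t) + 2 * ρ := by
    intro t u htu hu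
    have harc := arc_le F hB hD (c := fun t => C (A.φ b t)) (v := v) h1 h2 (ρ := ρ)
      (r₀ := (2 * D + η) * (u - t)) (r₁ := (2 * D + η) * (u - t) + 2 * ρ) h4' le_rfl
      (by nlinarith) (a := t) (s := u - t) (by linarith) (fun s' hs' => by
        have := hlip t (t + s') (by linarith [hs'.1])
        rw [add_sub_cancel_left] at this
        refine this.trans (mul_le_mul_of_nonneg_left hs'.2 (by linarith)))
    rw [add_sub_cancel] at harc
    exact (le_abs_self _).trans harc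
  -- upper bound on a period
  have hup : ∀ t u, t ≤ u → u ≤ t + 1 → 2 * D * (θ u - θ t) ≤ (2 * D + η) * (u - t) + 8 * ρ := by
    intro t u htu hu
    have k1 := hq t (t + (u - t) / 4) (by linarith) (by linarith)
    have k2 := hq (t + (u - t) / 4) (t + 2 * ((u - t) / 4)) (by linarith) (by linarith)
    have k3 := hq (t + 2 * ((u - t) / 4)) (t + 3 * ((u - t) / 4)) (by linarith) (by linarith)
    have k4 := hq (t + 3 * ((u - t) / 4)) u (by linarith) (by linarith)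
    nlinarith
  have hmain : ∀ t, |2 * D * θ t - 2 * D * (θ 0 + t)| ≤ η + 8 * ρ := by
    -- reduce to one period
    have key : ∀ t, 0 ≤ t → t ≤ 1 → |2 * D * θ t - 2 * D * (θ 0 + t)| ≤ η + 8 * ρ := by
      intro t h0 h5
      have k1 := hup 0 t h0 (by linarith)
      have k2 := hup t 1 h5 (by linarith)
      have k3 : θ 1 = θ 0 + 1 := by
        have := h3 0
        rwa [zero_add] at this
      rw [k3] at k2
      rw [abs_le]
      constructor
      · nlinarith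
      · nlinarith
    intro t
    have hper : Function.Periodic (fun t => |2 * D * θ t - 2 * D * (θ 0 + t)|) 1 := fun t => by
      change |2 * D * θ (t + 1) - 2 * D * (θ 0 + (t + 1))| = |2 * D * θ t - 2 * D * (θ 0 + t)|
      rw [h3]
      congr 1
      ring
    obtain ⟨s, hs, hs2⟩ := hper.exists_mem_Ico₀ one_pos t
    have hs3 : |2 * D * θ t - 2 * D * (θ 0 + t)| = |2 * D * θ s - 2 * D * (θ 0 + s)| := hs2
    rw [hs3]
    exact key s hs.1 hs.2.le
  -- small displacement along the geodesic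
  refine ⟨phi F (v, 2 * D * θ 0), fun t => ?_⟩
  rw [gm_phi]
  have k1 := h4' t
  have k2 := hmain t
  have e0 : 2 * D * θ 0 + 2 * D * t = 2 * D * (θ 0 + t) := by ring
  rw [e0]
  have k3 : dist (gm e (v, 2 * D * θ t)) (gm e (v, 2 * D * (θ 0 + t))) ≤ η + 8 * ρ := by
    -- geodesics are 1-Lipschitz
    have k4 : ∀ s t : ℝ, dist (gm e (v, s)) (gm e (v, t)) ≤ |t - s| := by
      intro s t
      rcases le_or_gt |t - s| D with h5 | h5
      · exact (S3R.dist_gm_gm F hB v h5).le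
      · exact (hdiam _ _).trans h5.le
    refine (k4 _ _).trans ?_
    rw [abs_sub_comm]
    exact k2
  have k4 := dist_triangle (C (A.φ b t)) (gm e (v, 2 * D * θ t)) (gm e (v, 2 * D * (θ 0 + t)))
  linarith

end

end Vale.Agent.P231.S3U
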