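import Vale.Agent.P231.S3U.Fam

/-!
# P231, stage 3, (U4), part 3: equivariant reparametrisation by regularised arclength
-/

set_option maxSynthPendingDepth 3
set_option linter.unusedSectionVars false
set_option linter.unusedVariables false

open Bundle Manifold Set Filter Module MeasureTheory
open scoped ContDiff Manifold Topology ENNReal

namespace Vale.Agent.P231.S3U

noncomputable section

open Vale.Agent.P234 Vale.Agent.P231 Vale.Agent.P231.H775 Vale.Agent.P231.Fm Vale.Agent.P231.W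
open Vale.Agent.P231.WD3 Vale.Agent.P231.H766

/-! ### unique zeros depend smoothly on parameters -/

section IFT

variable {V : Type*} [NormedAddCommGroup V] [NormedSpace ℝ V] [FiniteDimensional ℝ V]

theorem contDiffAt_zero {f : V × ℝ → ℝ} {τ : V → ℝ} {x : V} (hf : ContDiffAt ℝ ∞ f (x, τ x))
    {a : ℝ} (ha : a ≠ 0) (hd : HasDerivAt (fun t => f (x, t)) a (τ x)) (h0 : f (x, τ x) = 0)
    (huniq : ∀ᶠ y in 𝓝 x, ∀ t, f (y, t) = 0 → t = τ y) : ContDiffAt ℝ ∞ τ x := by
  set L := fderiv ℝ f (x, τ x) with hL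
  have hfd : HasFDerivAt f L (x, τ x) := (hf.differentiableAt (by simp)).hasFDerivAt
  have hL1 : L (0, 1) = a := by
    have h1 : HasDerivAt (fun t : ℝ => ((x, t) : V × ℝ)) (0, 1) (τ x) :=
      (hasDerivAt_const (τ x) x).prodMk (hasDerivAt_id (τ x))
    have h2 : HasDerivAt (fun t => f (x, t)) (L (0, 1)) (τ x) := hfd.comp_hasDerivAt (τ x) h1
    exact h2.unique hd
  set Φ : V × ℝ → V × ℝ := fun p => (p.1, f p) with hΦ
  set Φ' : V × ℝ →L[ℝ] V × ℝ := (ContinuousLinearMap.fst ℝ V ℝ).prod L with hΦ'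
  have hinj : Function.Injective (Φ' : V × ℝ →ₗ[ℝ] V × ℝ) := by
    rw [injective_iff_map_eq_zero]
    rintro ⟨h, k⟩ hk
    have h1 : h = 0 := congrArg Prod.fst hk
    have h2 : L (h, k) = 0 := congrArg Prod.snd hk
    subst h1
    have h3 : ((0 : V), k) = k • ((0 : V), (1 : ℝ)) := by simp
    rw [h3, map_smul, hL1, smul_eq_mul] at h2
    rcases mul_eq_zero.1 h2 with h4 | h4
    · rw [h4]; rfl
    · exact absurd h4 ha
  let eqv : (V × ℝ) ≃L[ℝ] (V × ℝ) :=
    (LinearEquiv.ofInjectiveEndo (Φ' : V × ℝ →ₗ[ℝ] V × ℝ) hinj).toContinuousLinearEquiv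
  have hcoe : (eqv : V × ℝ →L[ℝ] V × ℝ) = Φ' := by
    ext p <;> rfl
  have hΦc : ContDiffAt ℝ ∞ Φ (x, τ x) := contDiffAt_fst.prodMk hf
  have hΦd : HasFDerivAt Φ (eqv : V × ℝ →L[ℝ] V × ℝ) (x, τ x) := by
    rw [hcoe]
    exact hasFDerivAt_fst.prodMk hfd
  have hne : (∞ : WithTop ℕ∞) ≠ 0 := by simp
  set g := hΦc.localInverse hΦd hne with hg
  have hgc : ContDiffAt ℝ ∞ g (Φ (x, τ x)) := hΦc.to_localInverse hΦd hne
  have hΦx : Φ (x, τ x) = (x, 0) := by
    rw [hΦ]
    change (x, f (x, τ x)) = (x, 0)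
    rw [h0]
  rw [hΦx] at hgc
  have hr : ∀ᶠ z in 𝓝 ((x, 0) : V × ℝ), Φ (g z) = z := by
    have := (hΦc.hasStrictFDerivAt' hΦd hne).eventually_right_inverse
    rwa [hΦx] at this
  have hin : ContDiffAt ℝ ∞ (fun y : V => ((y, 0) : V × ℝ)) x := contDiffAt_id.prodMk contDiffAt_const
  have h5 : ContDiffAt ℝ ∞ (fun y : V => (g (y, 0)).2) x := (hgc.comp x hin).snd
  refine h5.congr_of_eventuallyEq ?_
  filter_upwards [huniq, hin.continuousAt.tendsto.eventually hr] with y hy1 hy2
  have e1 : (g (y, 0)).1 = y := congrArg Prod.fst hy2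
  have e2 : f (g (y, 0)) = 0 := congrArg Prod.snd hy2
  have e3 : g (y, 0) = (y, (g (y, 0)).2) := Prod.ext e1 rfl
  rw [e3] at e2
  exact (hy1 _ e2).symm

end IFT

/-! ### the displacement -/

section Abs

variable {B : Type*} {DB : Dif B} (A : CAct DB)

/-- the periodic primitive -/
def kap (w : B → ℝ) (b : B) : ℝ :=
  (∫ s in (0 : ℝ)..1, s * w (A.φ b s)) / avg A w b - 1 / 2

variable {A}

theorem avg_pos (hpt : Pts DB) {w : B → ℝ} (hw : DB.Map (Dif.lin ℝ) w) (hpos : ∀ b, 0 < w b)
    (b : B) : 0 < avg A w b :=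
  intervalIntegral.intervalIntegral_pos_of_pos
    ((contDiff_orbit hpt hw b).continuous.intervalIntegrable 0 1) (fun t => hpos _) one_pos

theorem kap_map (hpt : Pts DB) {w : B → ℝ} (hw : DB.Map (Dif.lin ℝ) w) (hpos : ∀ b, 0 < w b) :
    DB.Map (Dif.lin ℝ) (kap A w) := by
  have h1 : (DB.prod (Dif.lin ℝ)).Map (Dif.lin ℝ) (fun p : B × ℝ => p.2 * w (A.φ p.1 p.2)) := by
    intro V _ _ _ u x hu
    have h2 : Sm (fun y => (u y).2) x := hu.2
    have h3 : Sm (fun y => w (A.φ (u y).1 (u y).2)) x := map_orbit A hw hu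
    filter_upwards [h2, h3] with y e1 e2 using e1.mul e2
  have h4 : DB.Map (Dif.lin ℝ) (fun b => ∫ s in (0 : ℝ)..1, s * w (A.φ b s)) :=
    H766.map_integral h1 1
  have h5 : DB.Map (Dif.lin ℝ) (avg A w) := avg_map hw
  intro V _ _ _ u x hu
  have h6 : Sm (fun y => ∫ s in (0 : ℝ)..1, s * w (A.φ (u y) s)) x := h4 hu
  have h7 : Sm (fun y => avg A w (u y)) x := h5 hu
  change Sm (fun y => kap A w (u y)) x
  filter_upwards [h6, h7] with y e1 e2
  exact (e1.div e2 (avg_pos hpt hw hpos _).ne').sub contDiffAt_const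

theorem kap_abs (hpt : Pts DB) {w : B → ℝ} (hw : DB.Map (Dif.lin ℝ) w) (hpos : ∀ b, 0 < w b)
    (b : B) : |kap A w b| ≤ 1 / 2 := by
  have hc := (contDiff_orbit (A := A) hpt hw b).continuous
  have h0 := avg_pos (A := A) hpt hw hpos b
  have h1 : 0 ≤ ∫ s in (0 : ℝ)..1, s * w (A.φ b s) :=
    intervalIntegral.integral_nonneg zero_le_one fun s hs => mul_nonneg hs.1 (hpos _).le
  have h2 : ∫ s in (0 : ℝ)..1, s * w (A.φ b s) ≤ avg A w b := by
    refine intervalIntegral.integral_mono_on zero_le_one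
      ((continuous_id.mul hc).intervalIntegrable 0 1) (hc.intervalIntegrable 0 1) fun s hs => ?_
    exact mul_le_of_le_one_left (hpos _).le hs.2
  unfold kap
  rw [abs_le]
  constructor
  · have := div_nonneg h1 h0.le
    linarith
  · have := (div_le_one h0).2 h2
    linarith

/-- the derivative of the displacement along the orbits -/
theorem kap_deriv (hpt : Pts DB) {w : B → ℝ} (hw : DB.Map (Dif.lin ℝ) w) (hpos : ∀ b, 0 < w b)
    (b : B) (t : ℝ) :
    HasDerivAt (fun t => t + kap A w (A.φ b t)) (w (A.φ b t) / avg A w b) t := by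
  set W : ℝ → ℝ := fun x => w (A.φ b x) with hW
  have hWc : Continuous W := (contDiff_orbit (A := A) hpt hw b).continuous
  have hper : ∀ x, W (x + 1) = W x := fun x => by
    have : x + 1 = x + ((1 : ℤ) : ℝ) := by simp
    rw [hW]
    change w (A.φ b (x + 1)) = w (A.φ b x)
    rw [this, A.add_int]
  set Λ := avg A w b with hΛ
  have hΛ0 : 0 < Λ := avg_pos hpt hw hpos b
  -- primitives
  set P : ℝ → ℝ := fun t => ∫ x in (0 : ℝ)..t, x * W x with hP
  set Q : ℝ → ℝ := fun t => ∫ x in (0 : ℝ)..t, W x with hQ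
  have hxW : Continuous fun x => x * W x := continuous_id.mul hWc
  have hPd : ∀ t, HasDerivAt P (t * W t) t := fun t =>
    intervalIntegral.integral_hasDerivAt_right (hxW.intervalIntegrable 0 t)
      (hxW.stronglyMeasurableAtFilter volume (𝓝 t)) hxW.continuousAt
  have hQd : ∀ t, HasDerivAt Q (W t) t := fun t =>
    intervalIntegral.integral_hasDerivAt_right (hWc.intervalIntegrable 0 t)
      (hWc.stronglyMeasurableAtFilter volume (𝓝 t)) hWc.continuousAt
  have hform : ∀ t, kap A w (A.φ b t) =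
      ((P (t + 1) - P t) - t * (Q (t + 1) - Q t)) / Λ - 1 / 2 := by
    intro t
    unfold kap
    rw [avg_phi, ← hΛ]
    congr 2
    have h1 : ∫ s in (0 : ℝ)..1, s * w (A.φ (A.φ b t) s) =
        ∫ s in (0 : ℝ)..1, (fun x => (x - t) * W x) (t + s) := by
      refine intervalIntegral.integral_congr fun s _ => ?_
      simp only [A.add, hW, add_sub_cancel_left]
    rw [h1, intervalIntegral.integral_comp_add_left (f := fun x => (x - t) * W x) t, add_zero]
    have h2 : ∀ x, (x - t) * W x = x * W x - t * W x := fun x => by ring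
    simp only [h2]
    rw [intervalIntegral.integral_sub (hxW.intervalIntegrable _ _)
      ((hWc.const_mul t).intervalIntegrable _ _), intervalIntegral.integral_const_mul]
    have h3 : P (t + 1) - P t = ∫ x in t..(t + 1), x * W x :=
      intervalIntegral.integral_interval_sub_left (hxW.intervalIntegrable _ _)
        (hxW.intervalIntegrable _ _)
    have h4 : Q (t + 1) - Q t = ∫ x in t..(t + 1), W x :=
      intervalIntegral.integral_interval_sub_left (hWc.intervalIntegrable _ _)
        (hWc.intervalIntegrable _ _)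
    rw [h3, h4]
  have hQ1 : Q (t + 1) - Q t = Λ := by
    have h4 : Q (t + 1) - Q t = ∫ x in t..(t + 1), W x :=
      intervalIntegral.integral_interval_sub_left (hWc.intervalIntegrable _ _)
        (hWc.intervalIntegrable _ _)
    have hperF : Function.Periodic W 1 := hper
    rw [h4, hperF.intervalIntegral_add_eq t 0, zero_add]
    rfl
  have e1 : HasDerivAt (fun t => P (t + 1)) ((t + 1) * W (t + 1)) t :=
    (hPd (t + 1)).comp_add_const t 1
  have e2 : HasDerivAt (fun t => Q (t + 1)) (W (t + 1)) t := (hQd (t + 1)).comp_add_const t 1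
  have e3 := (((e1.sub (hPd t)).sub ((hasDerivAt_id t).mul (e2.sub (hQd t)))).div_const
    Λ).sub_const (1 / 2)
  have e4 := (hasDerivAt_id t).add e3
  have e5 := e4.congr_of_eventuallyEq (f₁ := fun t => t + kap A w (A.φ b t))
    (Eventually.of_forall fun s => by
      change s + kap A w (A.φ b s) = s + (((P (s + 1) - P s) - s * (Q (s + 1) - Q s)) / Λ - 1 / 2)
      rw [hform])
  have e6 : 1 + ((t + 1) * W (t + 1) - t * W t - (1 * (Q (t + 1) - Q t) +
      id t * (W (t + 1) - W t))) / Λ = w (A.φ b t) / Λ := by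
    rw [hper, hQ1]
    change 1 + ((t + 1) * W t - t * W t - (1 * Λ + t * (W t - W t))) / Λ = W t / Λ
    field_simp
    ring
  exact e5.congr_deriv e6

/-- **the reparametrisation**: an equivariant inverse of the normalised arclength -/
theorem exists_rep (hpt : Pts DB) {w : B → ℝ} (hw : DB.Map (Dif.lin ℝ) w) (hpos : ∀ b, 0 < w b) :
    ∃ θ : B → ℝ, DB.Map (Dif.lin ℝ) θ ∧ ∀ b, Monotone (fun t => t + θ (A.φ b t)) ∧
      ∀ s t, s ≤ t → ∫ x in (s + θ (A.φ b s))..(t + θ (A.φ b t)), w (A.φ b x) =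
        avg A w b * (t - s) := by
  set f : B → ℝ → ℝ := fun b t => t + kap A w (A.φ b t) with hf
  have hfd : ∀ b t, HasDerivAt (f b) (w (A.φ b t) / avg A w b) t := fun b t =>
    kap_deriv hpt hw hpos b t
  have hfmono : ∀ b, StrictMono (f b) := fun b => by
    refine strictMono_of_deriv_pos fun t => ?_
    rw [(hfd b t).deriv]
    exact div_pos (hpos _) (avg_pos hpt hw hpos b)
  have hfc : ∀ b, Continuous (f b) := fun b =>
    continuous_iff_continuousAt.2 fun t => (hfd b t).continuousAt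
  have hex : ∀ b, ∃ t, f b t = 0 := by
    intro b
    have h1 : f b (-1) ≤ 0 := by
      have := (abs_le.1 (kap_abs (A := A) hpt hw hpos (A.φ b (-1)))).2
      change -1 + kap A w (A.φ b (-1)) ≤ 0
      linarith
    have h2 : 0 ≤ f b 1 := by
      have := (abs_le.1 (kap_abs (A := A) hpt hw hpos (A.φ b 1))).1
      change 0 ≤ 1 + kap A w (A.φ b 1)
      linarith
    obtain ⟨t, _, ht⟩ := intermediate_value_Icc (by norm_num : (-1 : ℝ) ≤ 1)
      (hfc b).continuousOn ⟨h1, h2⟩
    exact ⟨t, ht⟩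
  choose θ hθ using hex
  have huniq : ∀ b t, f b t = 0 → t = θ b := fun b t ht =>
    (hfmono b).injective (ht.trans (hθ b).symm)
  -- the inverse of `f b`
  have hinv : ∀ b t, f b (t + θ (A.φ b t)) = t := by
    intro b t
    have h1 := hθ (A.φ b t)
    change θ (A.φ b t) + kap A w (A.φ (A.φ b t) (θ (A.φ b t))) = 0 at h1
    rw [A.add] at h1
    change t + θ (A.φ b t) + kap A w (A.φ b (t + θ (A.φ b t))) = t
    linarith
  refine ⟨θ, ?_, fun b => ⟨?_, ?_⟩⟩
  · intro V _ _ _ u x hu
    have hkm : DB.Map (Dif.lin ℝ) (kap A w) := kap_map hpt hw hpos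
    have hF : ∀ y t, DB.At u y → ContDiffAt ℝ ∞ (fun p : V × ℝ => f (u p.1) p.2) (y, t) := by
      intro y t hy
      have h1 : Sm (fun p : V × ℝ => kap A w (A.φ (u p.1) p.2)) (y, t) :=
        map_orbit A hkm (u := fun p : V × ℝ => (u p.1, p.2)) (Form.cyl_at hy t)
      exact contDiffAt_snd.add h1.contDiffAt
    change Sm (fun y => θ (u y)) x
    filter_upwards [DB.open' hu] with y hy
    refine contDiffAt_zero (f := fun p : V × ℝ => f (u p.1) p.2) (τ := fun y => θ (u y))
      (hF y _ hy) (div_pos (hpos (A.φ (u y) (θ (u y)))) (avg_pos (A := A) hpt hw hpos (u y))).ne'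
      (hfd (u y) (θ (u y))) (hθ (u y)) (Eventually.of_forall fun z t ht => huniq (u z) t ht)
  · intro s t hst
    by_contra hneg
    have h1 := hfmono b (not_le.1 hneg)
    simp only [hinv] at h1
    linarith
  · intro s t hst
    have hc : Continuous fun x => w (A.φ b x) := (contDiff_orbit (A := A) hpt hw b).continuous
    have h1 : ∫ x in (s + θ (A.φ b s))..(t + θ (A.φ b t)), w (A.φ b x) / avg A w b =
        f b (t + θ (A.φ b t)) - f b (s + θ (A.φ b s)) :=
      intervalIntegral.integral_eq_sub_of_hasDerivAt (fun x _ => hfd b x)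
        ((hc.div_const _).intervalIntegrable _ _)
    rw [hinv, hinv, intervalIntegral.integral_div, div_eq_iff (avg_pos hpt hw hpos b).ne'] at h1
    rw [h1]
    ring

end Abs

end

end Vale.Agent.P231.S3U
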