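import Vale.Agent.P231.S3U.Near
import Vale.Agent.P231.S3A.Dich

/-!
# P231, stage 3, (U2): polygon curves, and the dichotomy with a gap
-/

set_option maxSynthPendingDepth 3
set_option linter.unusedSectionVars false
set_option linter.unusedVariables false

open Bundle Manifold Set Filter Module
open scoped ContDiff Manifold Topology ENNReal NNReal

namespace Vale.Agent.P231.S3U

noncomputable section

open Vale.Agent.P234 hiding stp
open Vale.Agent.P231 Vale.Agent.P231.H775 Vale.Agent.P231.Fm Vale.Agent.P231.W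
open Vale.Agent.P231.WD3 Vale.Agent.P231.H766 Vale.Agent.P231.S3A

theorem stp_half : stp (1 / 2) = 1 / 2 := by
  unfold stp Real.smoothTransition
  have h1 : (3 : ℝ) * (1 / 2) - 1 = 1 / 2 := by norm_num
  have h2 : (1 : ℝ) - 1 / 2 = 1 / 2 := by norm_num
  have h3 : 0 < expNegInvGlue (1 / 2) := expNegInvGlue.pos_of_pos (by norm_num)
  rw [h1, h2]
  field_simp
  ring

/-- the smooth step is Lipschitz -/
theorem exists_lip_stp : ∃ K : ℝ, 1 ≤ K ∧ ∀ x y, |stp x - stp y| ≤ K * |x - y| := by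
  have hd : Continuous (deriv stp) := (contDiff_infty_iff_deriv.1 stp_contDiff).2.continuous
  obtain ⟨K, hK⟩ := (isCompact_Icc (a := (0 : ℝ)) (b := 1)).exists_bound_of_continuousOn
    hd.continuousOn
  have hK' : ∀ x, ‖deriv stp x‖ ≤ max K 1 := by
    intro x
    by_cases hx : x ∈ Icc (0 : ℝ) 1
    · exact (hK x hx).trans (le_max_left _ _)
    · have h0 : deriv stp x = 0 := by
        rw [mem_Icc, not_and_or, not_le, not_le] at hx
        rcases hx with h | h
        · have e : stp =ᶠ[𝓝 x] fun _ => 0 := by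
            filter_upwards [eventually_lt_nhds h] with y hy
            exact stp_of_le (by linarith)
          rw [e.deriv_eq, deriv_const]
        · have e : stp =ᶠ[𝓝 x] fun _ => 1 := by
            filter_upwards [eventually_gt_nhds h] with y hy
            exact stp_of_ge (by linarith)
          rw [e.deriv_eq, deriv_const]
      rw [h0, norm_zero]
      exact zero_le_one.trans (le_max_right _ _)
  refine ⟨max K 1, le_max_right _ _, fun x y => ?_⟩
  have hdiff : ∀ z ∈ (univ : Set ℝ), DifferentiableAt ℝ stp z := fun z _ =>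
    stp_contDiff.contDiffAt.differentiableAt (by simp)
  have h := convex_univ.norm_image_sub_le_of_norm_deriv_le (f := stp) hdiff
    (fun z _ => hK' z) (mem_univ y) (mem_univ x)
  rwa [Real.norm_eq_abs, Real.norm_eq_abs] at h

/-! ### the metric part -/

section Metric

variable {X : Type*} {m : ℕ} [NeZero m]

/-- a function on `ℤ / m`, read on the real line -/
def zc (z : ZMod m → X) (x : ℝ) : X := z (⌊x⌋ : ℤ)

theorem zc_int (z : ZMod m → X) (n : ℤ) : zc z n = z n := by rw [zc, Int.floor_intCast]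

theorem zc_int' (z : ZMod m → X) (n : ℤ) : zc z ((n : ℝ) + 1) = z (n + 1) := by
  have h := zc_int z (n + 1)
  push_cast at h
  exact h

/-- the polygon of a curve -/
def pg (c : ℝ → X) (i : ZMod m) : X := c i.val

theorem per_int_mul {c : ℝ → X} (hc : ∀ x, c (x + (m : ℤ)) = c x) (x : ℝ) (k : ℤ) :
    c (x + (m * k : ℤ)) = c x := by
  have hp : Function.Periodic c (m : ℝ) := fun x => by simpa using hc x
  have h := hp.int_mul k x
  rw [← h]
  congr 1
  push_cast
  ring

theorem pg_int {c : ℝ → X} (hc : ∀ x, c (x + (m : ℤ)) = c x) (n : ℤ) :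
    c n = pg c (n : ZMod m) := by
  have h1 : (((n : ZMod m).val : ℤ)) = n % m := ZMod.val_intCast n
  have h2 : (((n : ZMod m).val : ℝ)) = ((n % m : ℤ) : ℝ) := by exact_mod_cast h1
  have h3 : (n : ℝ) = ((n % m : ℤ) : ℝ) + ((m * (n / m) : ℤ) : ℝ) := by
    rw [← Int.cast_add, Int.emod_add_mul_ediv]
  rw [pg, h2]
  conv_lhs => rw [h3]
  exact per_int_mul hc _ _

theorem sum_zmod (f : ZMod m → ℝ) : ∑ i, f i = ∑ j ∈ Finset.range m, f (j : ZMod m) := by
  obtain ⟨k, hk⟩ : ∃ k, m = k + 1 := ⟨m - 1, (Nat.succ_pred_eq_of_pos (NeZero.pos m)).symm⟩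
  subst hk
  rw [← Fin.sum_univ_eq_sum_range (fun j : ℕ => f ((j : ℕ) : ZMod (k + 1))) (k + 1)]
  refine Finset.sum_congr rfl fun i _ => ?_
  congr 1
  exact (ZMod.natCast_zmod_val (n := k + 1) i).symm

end Metric

section Var

variable {M : Type*} [MetricSpace M] {m : ℕ} [NeZero m]

/-- the perimeter of the polygon of a curve -/
theorem Pe_pg_le {c : ℝ → M} (hc : ∀ x, c (x + (m : ℤ)) = c x) :
    ENNReal.ofReal (Pe (pg (m := m) c)) ≤ eVariationOn c (Icc (0 : ℝ) m) := by
  have hsd : ∀ j : ℕ, sd (pg (m := m) c) (j : ZMod m) = dist (c j) (c (j + 1)) := by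
    intro j
    have h1 := pg_int hc (j : ℤ)
    have h2 := pg_int hc ((j : ℤ) + 1)
    push_cast at h1 h2
    rw [sd, h1, h2]
  have key : ∀ k : ℕ, ENNReal.ofReal (∑ j ∈ Finset.range k, dist (c j) (c (j + 1))) ≤
      eVariationOn c (Icc (0 : ℝ) k) := by
    intro k
    induction k with
    | zero => simp
    | succ k ih =>
      have hk : (0 : ℝ) ≤ k := Nat.cast_nonneg k
      have h3 := eVariationOn.Icc_add_Icc c (s := univ) (a := (0 : ℝ)) (b := k)
        (c := k + 1) hk (by linarith) (mem_univ _)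
      simp only [univ_inter] at h3
      rw [Finset.sum_range_succ, ENNReal.ofReal_add (Finset.sum_nonneg fun _ _ => dist_nonneg)
        dist_nonneg]
      push_cast
      rw [← h3]
      refine add_le_add ih ?_
      rw [← edist_dist]
      exact eVariationOn.edist_le c ⟨le_rfl, by linarith⟩ ⟨by linarith, le_rfl⟩
  have h4 : Pe (pg (m := m) c) = ∑ j ∈ Finset.range m, dist (c j) (c (j + 1)) := by
    unfold Pe
    rw [sum_zmod]
    exact Finset.sum_congr rfl fun j _ => hsd j
  rw [h4]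
  exact key m

end Var

variable {E : Type*} [NormedAddCommGroup E] [NormedSpace ℝ E] [FiniteDimensional ℝ E]
  {M : Type*} [MetricSpace M] [ChartedSpace E M] [IsManifold 𝓘(ℝ, E) ∞ M]
  [RiemannianBundle (fun x : M => TangentSpace 𝓘(ℝ, E) x)]
  [IsContMDiffRiemannianBundle 𝓘(ℝ, E) ∞ E (fun x : M => TangentSpace 𝓘(ℝ, E) x)]
  {e : ∀ x : M, TangentSpace 𝓘(ℝ, E) x → M} {m : ℕ} [NeZero m]

/-- the polygon curve -/
def pc (e : ∀ x : M, TangentSpace 𝓘(ℝ, E) x → M) (z : ZMod m → M) : ℝ → M :=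
  NlZ (gG e) (zc z) 1

theorem NlZ_eq_pc {c : ℝ → M} (hc : ∀ x, c (x + (m : ℤ)) = c x) (x : ℝ) :
    NlZ (gG e) c 1 x = pc e (pg (m := m) c) x :=
  NlZ_one_congr (fun n => by rw [zc_int, pg_int hc]) x

theorem pc_low (z : ZMod m → M) (n : ℤ) {x : ℝ} (h0 : 0 ≤ x - n) (h1 : x - n ≤ 1 / 2) :
    pc e z x = gG e (z n) (z (n + 1)) (stp (2 * (x - n))) := by
  rw [pc, NlZ_low _ _ n h0 h1, zc_int, zc_int']

theorem pc_high (z : ZMod m → M) (n : ℤ) {x : ℝ} (h0 : 1 / 2 < x - n) (h1 : x - n < 1) :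
    pc e z x = z (n + 1) := by
  rw [pc, NlZ_high _ _ n h0 h1, sub_self, zero_mul, add_zero, zc_int']

/-- the midpoints -/
theorem pc_quarter (z : ZMod m → M) (n : ℤ) : pc e z (n + 1 / 4) = Mp e z n := by
  rw [pc_low z n (by linarith) (by linarith)]
  have h1 : 2 * ((n : ℝ) + 1 / 4 - n) = 1 / 2 := by ring
  rw [h1, stp_half]
  rfl

theorem pc_per (z : ZMod m → M) (x : ℝ) : pc e z (x + (m : ℤ)) = pc e z x := by
  refine NlZ_per (fun x => ?_) 1 x
  rw [zc, zc, Int.floor_add_intCast]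
  congr 1
  push_cast
  rw [ZMod.natCast_self, add_zero]

variable [CompactSpace M] [ConnectedSpace M] [IsRiemannianManifold 𝓘(ℝ, E) M] {D : ℝ}

/-- the variation of the polygon curve -/
theorem var_pc_le (F : Facts e) (hB : InjGE e D) {z : ZMod m → M} (hz : ∀ i, sd z i < D) :
    eVariationOn (pc e z) (Icc (0 : ℝ) m) ≤ ENNReal.ofReal (Pe z) := by
  have hz' : ∀ n : ℤ, dist (z n) (z (n + 1)) < D := fun n => hz n
  have hcell : ∀ n : ℤ, eVariationOn (pc e z) (Icc (n : ℝ) (n + 1)) ≤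
      edist (z n) (z (n + 1)) := by
    intro n
    have s1 : eVariationOn (pc e z) (Icc (n : ℝ) (n + 1)) =
        eVariationOn (pc e z) (Icc (n : ℝ) (n + 1 / 2)) +
          eVariationOn (pc e z) (Icc ((n : ℝ) + 1 / 2) (n + 1)) := by
      have := eVariationOn.Icc_add_Icc (pc e z) (s := univ) (a := (n : ℝ)) (b := n + 1 / 2)
        (c := n + 1) (by linarith) (by linarith) (mem_univ _)
      simpa only [univ_inter] using this.symm
    have h1 : EqOn (pc e z) (fun x => (geoM F hB).G (z n) (z (n + 1)) (stp (2 * (x - n))))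
        (Icc (n : ℝ) (n + 1 / 2)) := fun x hx =>
      pc_low z n (by linarith [hx.1]) (by linarith [hx.2])
    have h2 : EqOn (pc e z) (fun _ => z (n + 1)) (Icc ((n : ℝ) + 1 / 2) (n + 1)) := by
      intro x hx
      change pc e z x = z (n + 1)
      rcases eq_or_lt_of_le hx.2 with h2 | h2
      · subst h2
        have h3 := pc_low (e := e) z (n + 1) (x := (n : ℝ) + 1) (by push_cast; linarith)
          (by push_cast; linarith)
        rw [h3]
        have h4 : 2 * ((n : ℝ) + 1 - ((n + 1 : ℤ) : ℝ)) = 0 := by push_cast; ring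
        rw [h4, stp_of_le (by norm_num), gG_zero F]
        push_cast
        rfl
      · rcases eq_or_lt_of_le hx.1 with h3 | h3
        · rw [pc_low z n (by linarith) (by linarith), stp_of_ge (by linarith), gG_one F hB (hz' n)]
        · exact pc_high z n (by linarith) (by linarith)
    have h4 : eVariationOn (fun _ : ℝ => z ((n : ZMod m) + 1)) (Icc ((n : ℝ) + 1 / 2) (n + 1)) = 0 :=
      eVariationOn.constant_on (by
        rintro _ ⟨x, _, rfl⟩ _ ⟨y, _, rfl⟩
        rfl)
    rw [s1, eVariationOn.eq_of_eqOn h1, eVariationOn.eq_of_eqOn h2, h4, add_zero]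
    exact var_Gn (geoM F hB) (hz' n) n
  have key : ∀ k : ℕ, eVariationOn (pc e z) (Icc (0 : ℝ) k) ≤
      ENNReal.ofReal (∑ j ∈ Finset.range k, sd z (j : ZMod m)) := by
    intro k
    induction k with
    | zero =>
      rw [Nat.cast_zero, Icc_self, eVariationOn.subsingleton _ subsingleton_singleton]
      exact bot_le
    | succ k ih =>
      have hk : (0 : ℝ) ≤ k := Nat.cast_nonneg k
      have h3 := eVariationOn.Icc_add_Icc (pc e z) (s := univ) (a := (0 : ℝ)) (b := k)
        (c := k + 1) hk (by linarith) (mem_univ _)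
      simp only [univ_inter] at h3
      rw [Finset.sum_range_succ, ENNReal.ofReal_add (Finset.sum_nonneg fun j _ => sd_nonneg z _)
        (sd_nonneg z _)]
      push_cast
      rw [← h3]
      refine add_le_add ih ?_
      have h4 := hcell (k : ℤ)
      push_cast at h4
      rw [edist_dist] at h4
      exact h4
  unfold Pe
  rw [sum_zmod]
  exact key m

/-- the polygon curve is Lipschitz, to the right of every point -/
theorem lip_pc (F : Facts e) (hB : InjGE e D) {K : ℝ} (hK0 : 1 ≤ K)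
    (hK : ∀ x y, |stp x - stp y| ≤ K * |x - y|) {z : ZMod m → M} {d : ℝ} (hd : d < D)
    (hz : ∀ i, sd z i ≤ d) (x : ℝ) : ∀ᶠ h in 𝓝[>] (0 : ℝ),
      dist (pc e z x) (pc e z (x + h)) ≤ 2 * K * d * h := by
  have hd0 : 0 ≤ d := (sd_nonneg z 0).trans (hz 0)
  set n := ⌊x⌋ with hn
  have h0 : 0 ≤ x - n := sub_nonneg.2 (Int.floor_le _)
  have h1 : x - n < 1 := by
    rw [sub_lt_iff_lt_add']; exact Int.lt_floor_add_one _
  have hzn : dist (z n) (z (n + 1)) < D := (hz n).trans_lt hd
  rcases lt_or_ge (x - n) (1 / 2) with h2 | h2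
  · have h3 : ∀ᶠ h in 𝓝[>] (0 : ℝ), h < 1 / 2 - (x - n) :=
      nhdsWithin_le_nhds (eventually_lt_nhds (by linarith))
    filter_upwards [self_mem_nhdsWithin, h3] with h hpos hh
    have hpos' : (0 : ℝ) < h := hpos
    rw [pc_low z n h0 h2.le, pc_low z n (by linarith) (by linarith),
      dist_gG_gG F hB hzn (stp_mem _) (stp_mem _)]
    have h4 := hK (2 * (x - n)) (2 * (x + h - n))
    have h5 : |2 * (x - n) - 2 * (x + h - n)| = 2 * h := by
      rw [show 2 * (x - n) - 2 * (x + h - n) = -(2 * h) by ring, abs_neg, abs_of_pos (by linarith)]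
    rw [h5] at h4
    have h6 := mul_le_mul h4 (hz n) dist_nonneg (by positivity)
    calc _ ≤ K * (2 * h) * d := h6
      _ = _ := by ring
  · have h3 : ∀ᶠ h in 𝓝[>] (0 : ℝ), h < 1 - (x - n) :=
      nhdsWithin_le_nhds (eventually_lt_nhds (by linarith))
    filter_upwards [self_mem_nhdsWithin, h3] with h hpos hh
    have hpos' : (0 : ℝ) < h := hpos
    have h4 : pc e z x = z (n + 1) := by
      rcases eq_or_lt_of_le h2 with h5 | h5
      · rw [pc_low z n h0 (by linarith), stp_of_ge (by linarith), gG_one F hB hzn]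
      · exact pc_high z n h5 h1
    rw [h4, pc_high z n (by linarith) (by linarith), dist_self]
    positivity

/-- **the dichotomy, with a gap** -/
theorem dich_gap (F : Facts e) (hD : 0 < D) (hB : InjGE e D) (hdiam : ∀ p q : M, dist p q ≤ D)
    {ρ L : ℝ} (hρ : ρ < D) (hL : L < 4 * D) {W : Set (ZMod m → M)} (hW : IsOpen W)
    (hgW : ∀ v : UT E M, gp e D m v ∈ W) :
    ∃ (N : ℕ) (E₁ : ℝ), 0 ≤ E₁ ∧ E₁ < (2 * D) ^ 2 / m ∧ ∀ z ∈ PS M m ρ L,
      En ((Mp e)^[N] z) ≤ E₁ ∨ (Mp e)^[N] z ∈ W := by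
  obtain ⟨N, hN⟩ := dichotomy F hD hB hdiam hρ hL hW hgW
  have := compactSpace_PS (M := M) (m := m) ρ L
  have hm0 : (0 : ℝ) < m := Nat.cast_pos.2 (NeZero.pos m)
  have hE0 : 0 < (2 * D) ^ 2 / m := by positivity
  set f : PS M m ρ L → PS M m ρ L := (Sp F hB hρ)^[N] with hf
  have hfc : Continuous f := (continuous_Sp F hB hρ).iterate N
  set K : Set (PS M m ρ L) := {z | (f z).1 ∉ W} with hK
  have hKc : IsCompact K := by
    refine IsClosed.isCompact ?_
    have : IsClosed (Wᶜ : Set (ZMod m → M)) := hW.isClosed_compl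
    exact this.preimage (continuous_subtype_val.comp hfc)
  have hval : ∀ z : PS M m ρ L, (f z).1 = (Mp e)^[N] z.1 := fun z => Sp_iter F hB hρ N z
  rcases K.eq_empty_or_nonempty with h | h
  · refine ⟨N, 0, le_rfl, hE0, fun z hz => Or.inr ?_⟩
    by_contra hne
    have h1 : (⟨z, hz⟩ : PS M m ρ L) ∈ K := by
      change (f ⟨z, hz⟩).1 ∉ W
      rw [hval]
      exact hne
    rw [h] at h1
    exact h1
  · obtain ⟨u, hu, hmax⟩ := hKc.exists_isMaxOn h
      ((continuous_En.comp continuous_subtype_val).comp hfc).continuousOn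
    refine ⟨N, En (f u).1, Finset.sum_nonneg fun i _ => sq_nonneg _, ?_, fun z hz => ?_⟩
    · have h2 := hN N le_rfl u.1 u.2
      rw [← hval] at h2
      exact h2.resolve_right hu
    · by_cases hw : (Mp e)^[N] z ∈ W
      · exact Or.inr hw
      · left
        have h1 : (⟨z, hz⟩ : PS M m ρ L) ∈ K := by
          change (f ⟨z, hz⟩).1 ∉ W
          rw [hval]
          exact hw
        have h2 : En (f ⟨z, hz⟩).1 ≤ En (f u).1 := hmax h1
        rw [hval] at h2
        exact h2

/-- the neighbourhoods of the geodesic polygons -/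
def Wn (e : ∀ x : M, TangentSpace 𝓘(ℝ, E) x → M) (D : ℝ) (m : ℕ) [NeZero m] (ρ : ℝ) :
    Set (ZMod m → M) := {z | ∃ v : UT E M, ∀ i, dist (z i) (gp e D m v i) < ρ}

theorem isOpen_Wn (ρ : ℝ) : IsOpen (Wn e D m ρ) := by
  have h1 : Wn e D m ρ = ⋃ v : UT E M, ⋂ i, {z | dist (z i) (gp e D m v i) < ρ} := by
    ext z
    simp [Wn]
  rw [h1]
  refine isOpen_iUnion fun v => isOpen_iInter_of_finite fun i => ?_
  exact isOpen_lt ((continuous_apply i).dist continuous_const) continuous_const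

theorem gp_mem_Wn {ρ : ℝ} (hρ : 0 < ρ) (v : UT E M) : gp e D m v ∈ Wn e D m ρ :=
  ⟨v, fun i => by rw [dist_self]; exact hρ⟩

/-- the geodesic polygons at the integers -/
theorem gp_int (F : Facts e) (hD : 0 < D) (hB : InjGE e D) (hdiam : ∀ p q : M, dist p q ≤ D)
    (v : UT E M) (n : ℤ) : gp e D m v (n : ZMod m) = gm e (v, 2 * D * (n / m)) := by
  have hm0 : (m : ℝ) ≠ 0 := (Nat.cast_pos.2 (NeZero.pos m)).ne'
  have hc : ∀ x : ℝ, gm e (v, 2 * D * ((x + (m : ℤ)) / m)) = gm e (v, 2 * D * (x / m)) := by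
    intro x
    have h1 : 2 * D * ((x + (m : ℤ)) / m) = 2 * D * (x / m) + 2 * D := by
      push_cast
      field_simp
    rw [h1, S3A.gm_per F hD hB hdiam]
  have h2 := pg_int (m := m) (c := fun x => gm e (v, 2 * D * (x / m))) hc n
  refine Eq.trans ?_ h2.symm
  unfold gp pg
  change gm e (v, _) = gm e (v, _)
  congr 2
  ring

/-- polygons near the geodesic polygons -/
theorem NC_pc (F : Facts e) (hD : 0 < D) (hB : InjGE e D) (hdiam : ∀ p q : M, dist p q ≤ D)
    {ρ ρ' r₁ : ℝ} (hρ0 : 0 < ρ) (hmod : ∀ (v : UT E M) (a b : ℝ) (x y : M) (l : ℝ),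
      |2 * D * (b - a)| ≤ r₁ → dist x (gm e (v, 2 * D * a)) < ρ →
      dist y (gm e (v, 2 * D * b)) < ρ → l ∈ Icc (0 : ℝ) 1 →
      dist (gG e x y l) (gm e (v, 2 * D * (a + l * (b - a)))) < ρ') (hρ : ρ ≤ ρ')
    (hm : 2 * D / m ≤ r₁) {z : ZMod m → M} (hz : z ∈ Wn e D m ρ) :
    NC e D m ρ' (pc e z) := by
  have hm0 : (0 : ℝ) < m := Nat.cast_pos.2 (NeZero.pos m)
  obtain ⟨v, hv⟩ := hz
  set c : ℝ → M := fun x => if x = ⌊x⌋ then zc z x else gm e (v, 2 * D * (x / m)) with hc
  have hcn : ∀ n : ℤ, c n = z n := by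
    intro n
    rw [hc]
    change (if (n : ℝ) = ⌊(n : ℝ)⌋ then zc z n else _) = z n
    rw [if_pos (by rw [Int.floor_intCast]), zc_int]
  have h1 : ∀ x, NlZ (gG e) c 1 x = pc e z x := fun x =>
    NlZ_one_congr (fun n => by rw [hcn, zc_int]) x
  have h2 : NC e D ((m : ℤ) : ℝ) ρ' (NlZ (gG e) c 1) := by
    refine NC_NlZ hmod hρ (v := v) (θ := fun x => x / m) (continuous_id.div_const _)
      (fun x y h => div_le_div_of_nonneg_right h hm0.le) (fun x => ?_) (fun x => ?_)
      ⟨zero_le_one, le_rfl⟩ (fun n => ?_)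
    · push_cast
      field_simp
    · by_cases hx : x = ⌊x⌋
      · rw [hx, hcn]
        have h3 := hv (⌊x⌋ : ℤ)
        rw [gp_int F hD hB hdiam] at h3
        exact h3
      · have h3 : c x = gm e (v, 2 * D * (x / m)) := if_neg hx
        rw [h3, dist_self]
        exact hρ0
    · have h3 : 2 * D * (((n : ℝ) + 1) / m - n / m) = 2 * D / m := by
        field_simp
        ring
      rw [h3, abs_of_pos (by positivity)]
      exact hm
  have h3 : NlZ (gG e) c 1 = pc e z := funext h1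
  rw [h3] at h2
  simpa using h2

/-- the perimeter of a polygon near the geodesic polygons -/
theorem Pe_Wn (F : Facts e) (hD : 0 < D) (hB : InjGE e D) (hdiam : ∀ p q : M, dist p q ≤ D)
    {ρ : ℝ} (hm : 2 * D / m ≤ D) {z : ZMod m → M} (hz : z ∈ Wn e D m ρ) :
    Pe z ≤ 2 * D + 2 * m * ρ := by
  have hm0 : (0 : ℝ) < m := Nat.cast_pos.2 (NeZero.pos m)
  obtain ⟨v, hv⟩ := hz
  have h1 : ∀ i, sd z i ≤ 2 * D / m + 2 * ρ := by
    intro i
    have h2 : dist (gp e D m v i) (gp e D m v (i + 1)) = 2 * D / m := by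
      rw [S3A.gp_succ F hD hB hdiam]
      unfold gp
      have e0 : ((i.val : ℝ) + 1) * (2 * D / m) - i.val * (2 * D / m) = 2 * D / m := by ring
      rw [S3R.dist_gm_gm F hB v (by rw [e0, abs_of_pos (by positivity)]; exact hm), e0,
        abs_of_pos (by positivity)]
    have h3 := dist_triangle4 (z i) (gp e D m v i) (gp e D m v (i + 1)) (z (i + 1))
    have h4 := hv i
    have h5 := hv (i + 1)
    rw [dist_comm] at h5
    unfold sd
    linarith
  unfold Pe
  refine (Finset.sum_le_sum fun i _ => h1 i).trans (le_of_eq ?_)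
  rw [Finset.sum_const, Finset.card_univ, ZMod.card, nsmul_eq_mul]
  field_simp

end

end Vale.Agent.P231.S3U
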