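import Vale.Agent.P231.S3U.Cell

/-!
# P231, stage 3, (U1): one substage, on families of loops with origin
-/

set_option linter.unusedSectionVars false
set_option linter.unusedVariables false

open Set Filter Topology
open scoped ContDiff ENNReal

namespace Vale.Agent.P231.S3U

open Vale.Agent.P231.Fm Vale.Agent.P231.H766

variable {B : Type*} {DB : Dif B} {A : CAct DB} {M : Type*} [MetricSpace M] {DM : Dif M}

/-- the loop of `b`, with the origin given by `τ`, in the time scale with period `m` -/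
noncomputable def lpm (m : ℕ) (A : CAct DB) (C : B → M) (b : B) (τ x : ℝ) : M :=
  C (A.φ b (x / m - τ))

section Loops

variable {m : ℕ} (hm : 0 < m) (C : B → M)

include hm in
omit [MetricSpace M] in
theorem lpm_per (b : B) (τ x : ℝ) : lpm m A C b τ (x + (m : ℤ)) = lpm m A C b τ x := by
  have hm' : (m : ℝ) ≠ 0 := by positivity
  have h : (x + (m : ℤ)) / m - τ = (x / m - τ) + ((1 : ℤ) : ℝ) := by
    push_cast
    field_simp
    ring
  rw [lpm, lpm, h, A.add_int]

omit [MetricSpace M] in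
theorem lpm_shift (b : B) (τ : ℝ) (n : ℤ) : lpm m A C b (τ + n) = lpm m A C b τ := by
  funext x
  have h : x / m - (τ + n) = (x / m - τ) + ((-n : ℤ) : ℝ) := by push_cast; ring
  rw [lpm, lpm, h, A.add_int]

omit [MetricSpace M] in
theorem lpm_phi (b : B) (τ t : ℝ) : lpm m A C (A.φ b t) (τ + t) = lpm m A C b τ := by
  funext x
  rw [lpm, lpm, A.add]
  congr 2
  ring

include hm in
omit [MetricSpace M] in
theorem lpm_apply (b : B) (τ t : ℝ) : lpm m A C b τ (m * (τ + t)) = C (A.φ b t) := by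
  have hm' : (m : ℝ) ≠ 0 := by positivity
  rw [lpm]
  congr 2
  field_simp
  ring

end Loops

/-- the variation over a period -/
theorem var_loop {m : ℕ} (hm : 0 < m) {c : ℝ → M} (hc : ∀ x, c (x + (m : ℤ)) = c x) (τ : ℝ) :
    eVariationOn (fun t => c (m * (τ + t))) (Icc 0 1) = eVariationOn c (Icc (0 : ℝ) m) := by
  have hm' : (0 : ℝ) < m := by positivity
  have h1 : ∀ t, c (m * (t + 1)) = c (m * t) := fun t => by
    rw [mul_add, mul_one]
    exact hc _
  have h2 := var_period (c := fun t => c (m * t)) h1 τ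
  have h3 := eVariationOn.comp_eq_of_monotoneOn (fun t => c (m * t)) (t := Icc (0 : ℝ) 1)
    (fun t : ℝ => τ + t) (fun s _ t _ h => by simpa using h)
  have h4 : (fun t : ℝ => τ + t) '' Icc (0 : ℝ) 1 = Icc τ (τ + 1) := by
    rw [image_const_add_Icc, add_zero]
  rw [h4] at h3
  have h5 := eVariationOn.comp_eq_of_monotoneOn c (t := Icc (0 : ℝ) 1)
    (fun t : ℝ => m * t) (fun s _ t _ h => mul_le_mul_of_nonneg_left h hm'.le)
  have h6 : (fun t : ℝ => (m : ℝ) * t) '' Icc (0 : ℝ) 1 = Icc (0 : ℝ) m := by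
    rw [image_mul_left_Icc hm'.le zero_le_one, mul_zero, mul_one]
  rw [h6] at h5
  exact h3.trans (h2.trans h5)

/-- the variation of a loop, and of the loop with origin -/
theorem var_lpm {m : ℕ} (hm : 0 < m) (C : B → M) (b : B) (τ : ℝ) :
    eVariationOn (lpm m A C b τ) (Icc (0 : ℝ) m) = eVariationOn (fun t => C (A.φ b t)) (Icc 0 1) := by
  rw [← var_loop hm (fun x => lpm_per hm C b τ x) τ]
  simp only [lpm_apply hm]

section Sub

variable {D : ℝ} (g : Geo DM D) {F : B → ℂ} (hFs : DB.Map (Dif.lin ℂ) F) (hFe : Equi A F)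
  {δ : ℝ} (hδ : 0 < δ) {C : B → M} (hC : DB.Map DM C) {m : ℕ} (hm : 0 < m)

theorem dsp_ang' {b : B} (h : F b ≠ 0) {τ : ℝ} (hτ : Ang (F b) τ) :
    dsp (m * ang (F b)) = dsp (m * τ) := by
  obtain ⟨n, hn⟩ := Ang.unique h (Ang_ang (F b)) hτ
  have h1 : (m : ℝ) * ang (F b) = m * τ + ((m * n : ℤ) : ℝ) := by
    rw [hn]
    push_cast
    ring
  rw [h1, dsp_add_int]

/-- the displacement -/
noncomputable def shfm (m : ℕ) (F : B → ℂ) (δ : ℝ) (b : B) : ℝ :=
  chA F δ b * (dsp (m * ang (F b)) / m)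

include hFs hδ in
theorem shfm_smooth {E : Type} [NormedAddCommGroup E] [NormedSpace ℝ E] [FiniteDimensional ℝ E]
    {u : E → B} {x : E} (hu : DB.At u x) : Sm (fun y => shfm m F δ (u y)) x := by
  have hX := siz_smooth (δ := δ) hFs hu
  by_cases h0 : F (u x) = 0
  · have h1 : siz F δ (u x) = 0 := by rw [siz, h0]; simp
    have e : ∀ᶠ y in 𝓝 x, siz F δ (u y) < 1 / 12 :=
      hX.continuousAt.eventually_lt_const (show siz F δ (u x) < 1 / 12 by rw [h1]; norm_num)
    refine (Sm.of_contDiff (contDiff_const (c := (0 : ℝ))) x).congr ?_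
    filter_upwards [e] with y hy
    rw [shfm, chA, stp_of_le (by linarith), zero_mul]
  · have h1 : Sm (fun y => F (u y)) x := hFs hu
    obtain ⟨τ, hτ, hτ2⟩ := exists_branch h1 h0
    have e : ∀ᶠ y in 𝓝 x, F (u y) ≠ 0 := h1.continuousAt.eventually_ne h0
    have h2 : Sm (fun y => stp (4 * siz F δ (u y) + 0) * (dsp (m * τ y) / m)) x := by
      filter_upwards [Sm_stp hX 4 0, hτ] with y h3 h4
      exact h3.mul ((dsp_contDiff.contDiffAt.comp y (contDiffAt_const.mul h4)).div_const _)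
    refine h2.congr ?_
    filter_upwards [e, hτ2] with y h3 h4
    rw [shfm, chA, dsp_ang' h3 h4, add_zero]

include hFe in
theorem shfm_phi (b : B) (t : ℝ) :
    shfm m F δ (A.φ b t) = chA F δ b * (dsp (m * (ang (F b) + t)) / m) := by
  have h1 : chA F δ (A.φ b t) = chA F δ b := by rw [chA, chA, siz_phi hFe]
  rw [shfm, h1]
  by_cases h0 : F b = 0
  · have h2 : chA F δ b = 0 := by
      rw [chA, siz, h0]
      exact stp_of_le (by simp)
    rw [h2, zero_mul, zero_mul]
  · have h2 : F (A.φ b t) ≠ 0 := by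
      rw [← norm_ne_zero_iff, hFe.norm, norm_ne_zero_iff]
      exact h0
    rw [dsp_ang' h2 (hFe.ang (Ang_ang (F b)) t)]

/-- the first homotopy: flattening -/
noncomputable def HAm (m : ℕ) (A : CAct DB) (F : B → ℂ) (δ : ℝ) (C : B → M) (b : B) (u : ℝ) : M :=
  C (A.φ b (stp u * shfm m F δ b))

include hFs hδ hC in
theorem HAm_smooth : (DB.prod (Dif.lin ℝ)).Map DM (fun p => HAm m A F δ C p.1 p.2) := by
  intro E _ _ _ w x hw
  refine hC (A.at_phi hw.1 ?_)
  have h1 : Sm (fun y => (w y).2) x := hw.2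
  have h2 : Sm (fun y => shfm m F δ (w y).1) x := shfm_smooth hFs hδ hw.1
  filter_upwards [h1, h2] with y h3 h4
  exact (stp_contDiff.contDiffAt.comp y h3).mul h4

/-- the parameter of the flattened loops -/
noncomputable def flt (m : ℕ) (κ τ t : ℝ) : ℝ := t + κ * (dsp (m * (τ + t)) / m)

include hm in
theorem flt_add (κ τ t : ℝ) : flt m κ τ (t + 1) = flt m κ τ t + 1 := by
  have h1 : (m : ℝ) * (τ + (t + 1)) = m * (τ + t) + ((m : ℤ) : ℝ) := by push_cast; ring
  rw [flt, flt, h1, dsp_add_int]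
  ring

include hm in
theorem flt_mono {κ : ℝ} (h0 : 0 ≤ κ) (h1 : κ ≤ 1) (τ : ℝ) : Monotone (flt m κ τ) := by
  have hm' : (0 : ℝ) < m := by positivity
  intro s t h
  have h4 := bet_mono (show (m : ℝ) * (τ + s) ≤ m * (τ + t) from
    mul_le_mul_of_nonneg_left (by linarith) hm'.le)
  have h5 : ∀ r, flt m κ τ r = (1 - κ) * r + κ * (bet (m * (τ + r)) / m - τ) := by
    intro r
    rw [flt, dsp]
    field_simp
    ring
  rw [h5, h5]
  have h6 : bet (m * (τ + s)) / m ≤ bet (m * (τ + t)) / m :=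
    div_le_div_of_nonneg_right h4 hm'.le
  have h7 := mul_le_mul_of_nonneg_left h (show 0 ≤ 1 - κ by linarith)
  have h8 := mul_le_mul_of_nonneg_left (show bet (m * (τ + s)) / m - τ ≤
    bet (m * (τ + t)) / m - τ by linarith) h0
  linarith

theorem flt_cont (κ τ : ℝ) : Continuous (flt m κ τ) := by
  have h1 : Continuous dsp := dsp_contDiff.continuous
  exact continuous_id.add (continuous_const.mul ((h1.comp (continuous_const.mul
    (continuous_const.add continuous_id))).div_const _))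

include hFe in
theorem HAm_phi (b : B) (u t : ℝ) : HAm m A F δ C (A.φ b t) u =
    C (A.φ b (flt m (stp u * chA F δ b) (ang (F b)) t)) := by
  rw [HAm, shfm_phi hFe, A.add, flt, mul_assoc]

theorem chA_mem (b : B) : chA F δ b ∈ Icc (0 : ℝ) 1 := ⟨stp_nonneg _, stp_le_one _⟩

theorem mul_mem01 {a b : ℝ} (ha : a ∈ Icc (0 : ℝ) 1) (hb : b ∈ Icc (0 : ℝ) 1) :
    a * b ∈ Icc (0 : ℝ) 1 := ⟨mul_nonneg ha.1 hb.1, mul_le_one₀ ha.2 hb.1 hb.2⟩

include hFe hm in
theorem var_HAm (b : B) (u : ℝ) :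
    eVariationOn (fun t => HAm m A F δ C (A.φ b t) u) (Icc 0 1) ≤
      eVariationOn (fun t => C (A.φ b t)) (Icc 0 1) := by
  have hk := mul_mem01 (stp_mem u) (chA_mem (F := F) (δ := δ) b)
  simp only [HAm_phi hFe]
  have h3 := var_reparam (c := fun t => C (A.φ b t)) (phi_per C b)
    (m := flt m (stp u * chA F δ b) (ang (F b))) (a := 0)
    ((flt_mono hm hk.1 hk.2 _).monotoneOn _) (flt_add hm _ _ _)
  simpa using h3

/-- the second homotopy: contraction -/
noncomputable def HBm (m : ℕ) (A : CAct DB) (F : B → ℂ) (δ : ℝ) (κ : B → ℝ) (C : B → M) (b : B)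
    (u : ℝ) : M :=
  if siz F δ b ≤ 1 / 4 then HAm m A F δ C b 1 else
    NlZ g.G (lpm m A C b (ang (F b))) (chB F δ b * (κ b * stp u)) (m * ang (F b))

include hm in
theorem NlZ_ang (C : B → M) {b : B} (h : F b ≠ 0) {τ : ℝ} (hτ : Ang (F b) τ) (s : ℝ) :
    NlZ g.G (lpm m A C b (ang (F b))) s (m * ang (F b)) = NlZ g.G (lpm m A C b τ) s (m * τ) := by
  obtain ⟨n, hn⟩ := Ang.unique h (Ang_ang (F b)) hτ
  have h1 : (m : ℝ) * (τ + n) = m * τ + ((m * n : ℤ) : ℝ) := by push_cast; ring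
  rw [hn, lpm_shift, h1]
  refine NlZ_per (fun x => ?_) s (m * τ)
  have hm' : (m : ℝ) ≠ 0 := by positivity
  have h2 : (x + ((m * n : ℤ) : ℝ)) / m - τ = (x / m - τ) + n := by
    push_cast
    field_simp
    ring
  rw [lpm, lpm, h2, A.add_int]

include hm in
theorem NlZ_zero_lpm (hD : 0 < D) (C : B → M) (b : B) (τ : ℝ) :
    NlZ g.G (lpm m A C b τ) 0 (m * τ) = C (A.φ b (dsp (m * τ) / m)) := by
  have hm' : (m : ℝ) ≠ 0 := by positivity
  rw [NlZ_zero (fun r hr => G_self g hD hr), lpm, dsp]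
  congr 2
  field_simp

include hm in
theorem overlap' (hD : 0 < D) (κ : B → ℝ) (C : B → M) {b : B} (h1 : 1 / 4 < siz F δ b) (u : ℝ)
    (h2 : chB F δ b * (κ b * stp u) = 0) :
    NlZ g.G (lpm m A C b (ang (F b))) (chB F δ b * (κ b * stp u)) (m * ang (F b)) =
      HAm m A F δ C b 1 := by
  have e2 : chA F δ b = 1 := stp_of_ge (by linarith)
  have e4 : stp 1 = 1 := stp_of_ge (by norm_num)
  rw [h2, NlZ_zero_lpm g hm hD, HAm, shfm, e2, one_mul, e4, one_mul]

variable {κ : B → ℝ} (hκs : DB.Map (Dif.lin ℝ) κ) (hκi : ∀ b t, κ (A.φ b t) = κ b)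
  (hκ : ∀ b, κ b ∈ Icc (0 : ℝ) 1) (hD : 0 < D)
  (hcell : ∀ b, κ b ≠ 0 → ∀ t x : ℝ, 0 ≤ x → x ≤ 1 / m →
    dist (C (A.φ b t)) (C (A.φ b (t + x))) < D)

include hm hD hcell in
theorem cell_lt (b : B) (τ : ℝ) {s : ℝ} (hs : s ∈ Icc (0 : ℝ) 1) (h0 : κ b = 0 → s = 0) (a : ℝ) :
    dist (lpm m A C b τ a) (lpm m A C b τ (a + s)) < D := by
  by_cases hk : κ b = 0
  · rw [h0 hk, add_zero, dist_self]
    exact hD
  · have hm' : (0 : ℝ) < m := by positivity
    have h1 := hcell b hk (a / m - τ) (s / m) (div_nonneg hs.1 hm'.le)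
      (div_le_div_of_nonneg_right hs.2 hm'.le)
    rw [lpm, lpm]
    have h2 : (a + s) / m - τ = a / m - τ + s / m := by ring
    rw [h2]
    exact h1

theorem sB_mem (b : B) (u : ℝ) (hκ : ∀ b, κ b ∈ Icc (0 : ℝ) 1) :
    chB F δ b * (κ b * stp u) ∈ Icc (0 : ℝ) 1 :=
  mul_mem01 ⟨stp_nonneg _, stp_le_one _⟩ (mul_mem01 (hκ b) (stp_mem u))

include hFs hδ hC hm hκs hκ hD hcell in
theorem HBm_smooth : (DB.prod (Dif.lin ℝ)).Map DM (fun p => HBm g m A F δ κ C p.1 p.2) := by
  intro E _ _ _ w x hw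
  have hv : Sm (fun y => (w y).2) x := hw.2
  have hu : DB.At (fun y => (w y).1) x := hw.1
  have hX := siz_smooth (δ := δ) hFs hu
  have hk : Sm (fun y => κ (w y).1) x := hκs hu
  rcases lt_or_ge (siz F δ (w x).1) (1 / 3) with h1 | h1
  · have e : ∀ᶠ y in 𝓝 x, siz F δ (w y).1 < 1 / 3 := hX.continuousAt.eventually_lt_const h1
    have h2 := HAm_smooth (A := A) (m := m) hFs hδ hC (u := fun y => ((w y).1, (1 : ℝ))) (x := x)
      ⟨hu, Sm.of_contDiff contDiff_const x⟩
    refine DM.congr h2 ?_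
    filter_upwards [e] with y hy
    change HAm m A F δ C (w y).1 1 = HBm g m A F δ κ C (w y).1 (w y).2
    rw [HBm]
    split_ifs with h3
    · rfl
    · rw [overlap' g hm hD κ C (not_le.1 h3) _ (by
        rw [chB, stp_of_le hy.le, zero_mul])]
  · have e : ∀ᶠ y in 𝓝 x, 1 / 4 < siz F δ (w y).1 :=
      hX.continuousAt.eventually_const_lt (show 1 / 4 < siz F δ (w x).1 by linarith)
    have h0 : F (w x).1 ≠ 0 := F_ne_of_siz (δ := δ) (by linarith)
    have h2 : Sm (fun y => F (w y).1) x := hFs hu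
    obtain ⟨τ, hτ, hτ2⟩ := exists_branch h2 h0
    have hs : Sm (fun y => stp (1 * siz F δ (w y).1 + 0) * (κ (w y).1 * stp (w y).2)) x := by
      filter_upwards [Sm_stp hX 1 0, hv, hk] with y h3 h4 h5
      exact h3.mul (h5.mul (stp_contDiff.contDiffAt.comp y h4))
    have hmτ : Sm (fun y => (m : ℝ) * τ y) x := by
      filter_upwards [hτ] with y h3 using contDiffAt_const.mul h3
    have h3 := At_NlZ g (c := fun y => lpm m A C (w y).1 (τ y)) (fun f hf => ?_) hmτ hs ?_
    · refine DM.congr h3 ?_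
      filter_upwards [e, hτ2] with y h4 h5
      change _ = HBm g m A F δ κ C (w y).1 (w y).2
      rw [HBm, if_neg (not_le.2 h4), NlZ_ang g hm C (F_ne_of_siz (δ := δ) (by linarith)) h5,
        one_mul, add_zero, chB]
    · refine hC (A.at_phi hu ?_)
      filter_upwards [hf, hτ] with y h4 h5
      exact (h4.div_const _).sub h5
    · refine cell_lt hm hD hcell (w x).1 (τ x)
        (mul_mem01 ⟨stp_nonneg _, stp_le_one _⟩ (mul_mem01 (hκ _) (stp_mem _))) (fun h => ?_) _
      rw [h, zero_mul, mul_zero]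

include hFe hm hκi in
/-- the contracted loop, as a stage of the original one -/
theorem HBm_phi {b : B} (h : 1 / 4 < siz F δ b) (u t : ℝ) :
    HBm g m A F δ κ C (A.φ b t) u = NlZ g.G (lpm m A C b (ang (F b)))
      (chB F δ b * (κ b * stp u)) (m * (ang (F b) + t)) := by
  have h1 : siz F δ (A.φ b t) = siz F δ b := siz_phi hFe b t
  have h2 : F (A.φ b t) ≠ 0 := F_ne_of_siz (δ := δ) (by rw [h1]; linarith)
  have h3 : chB F δ (A.φ b t) = chB F δ b := by rw [chB, chB, h1]
  rw [HBm, if_neg (by rw [h1]; exact not_le.2 h), NlZ_ang g hm C h2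
    (hFe.ang (Ang_ang (F b)) t), lpm_phi, h3, hκi]

include hFe in
theorem HBm_phi' {b : B} (h : siz F δ b ≤ 1 / 4) (u t : ℝ) :
    HBm g m A F δ κ C (A.φ b t) u = HAm m A F δ C (A.φ b t) 1 := by
  rw [HBm, if_pos (by rw [siz_phi hFe]; exact h)]

include hFe hm hκi hκ hD hcell in
theorem var_HBm (b : B) (u : ℝ) :
    eVariationOn (fun t => HBm g m A F δ κ C (A.φ b t) u) (Icc 0 1) ≤
      eVariationOn (fun t => C (A.φ b t)) (Icc 0 1) := by
  rcases le_or_gt (siz F δ b) (1 / 4) with h1 | h1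
  · simp only [HBm_phi' g hFe h1]
    exact var_HAm hFe hm b 1
  · simp only [HBm_phi g hFe hm hκi h1]
    have hs := sB_mem (F := F) (δ := δ) b u hκ
    have h0 : κ b = 0 → chB F δ b * (κ b * stp u) = 0 := fun h => by rw [h, zero_mul, mul_zero]
    rw [var_loop hm (fun x => NlZ_per (lpm_per hm C b _) _ x), ← var_lpm hm C b (ang (F b))]
    exact var_cells g hs (fun n => cell_lt hm hD hcell b _ hs h0 n) m

include g hFs hFe hδ hC hm hκs hκi hκ hD hcell in
/-- **one substage** -/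
theorem substage : ∃ C' : B → M,
    Hty DM A (fun b => eVariationOn (fun t => C (A.φ b t)) (Icc 0 1))
      (fun b => ∀ t, C (A.φ b t) = C b) C C' ∧
    (∀ b, (∃ k ∈ Icc (0 : ℝ) 1, ∃ τ, ∀ t, C' (A.φ b t) = C (A.φ b (flt m k τ t))) ∨
      ∃ s ∈ Icc (0 : ℝ) 1, (κ b = 0 → s = 0) ∧ ∃ τ, ∀ t,
        C' (A.φ b t) = NlZ g.G (lpm m A C b τ) s (m * (τ + t))) ∧
    ∀ b, δ ≤ ‖F b‖ → κ b = 1 → ∀ τ, Ang (F b) τ → ∀ t,
      C' (A.φ b t) = NlZ g.G (lpm m A C b τ) 1 (m * (τ + t)) := by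
  have e1 : stp 1 = 1 := stp_of_ge (by norm_num)
  refine ⟨fun b => HBm g m A F δ κ C b 1, Hty.trans (C₁ := fun b => HAm m A F δ C b 1) ?_ ?_,
    ?_, ?_⟩
  · refine ⟨HAm m A F δ C, HAm_smooth hFs hδ hC, fun b u hu => ?_, fun b u hu => ?_,
      fun b u => var_HAm hFe hm b u, fun b hb u => ?_⟩
    · rw [HAm, stp_of_le (by linarith), zero_mul, A.zero]
    · change HAm m A F δ C b u = HAm m A F δ C b 1
      rw [HAm, HAm, stp_of_ge (by linarith), stp_of_ge (by norm_num)]
    · rw [HAm, hb]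
  · refine ⟨HBm g m A F δ κ C, HBm_smooth g hFs hδ hC hm hκs hκ hD hcell, fun b u hu => ?_,
      fun b u hu => ?_, fun b u => var_HBm g hFe hm hκi hκ hD hcell b u, fun b hb u => ?_⟩
    · change HBm g m A F δ κ C b u = HAm m A F δ C b 1
      rw [HBm]
      split_ifs with h1
      · rfl
      · exact overlap' g hm hD κ C (not_le.1 h1) u (by
          rw [stp_of_le (by linarith), mul_zero, mul_zero])
    · change HBm g m A F δ κ C b u = HBm g m A F δ κ C b 1
      rw [HBm, HBm, stp_of_ge (by linarith), stp_of_ge (by norm_num)]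
    · change HBm g m A F δ κ C b u = HAm m A F δ C b 1
      rw [HBm]
      split_ifs with h1
      · rfl
      · have h2 : lpm m A C b (ang (F b)) = fun _ => C b := by
          funext x
          exact hb _
        rw [h2, NlZ_const (fun r hr => G_self g hD hr), HAm, hb]
  · intro b
    rcases le_or_gt (siz F δ b) (1 / 4) with h1 | h1
    · left
      refine ⟨stp 1 * chA F δ b, mul_mem01 (stp_mem _) (chA_mem b), ang (F b), fun t => ?_⟩
      change HBm g m A F δ κ C (A.φ b t) 1 = _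
      rw [HBm_phi' g hFe h1, HAm_phi hFe]
    · right
      refine ⟨chB F δ b * (κ b * stp 1), sB_mem b 1 hκ, fun h => by rw [h, zero_mul, mul_zero],
        ang (F b), fun t => HBm_phi g hFe hm hκi h1 1 t⟩
  · intro b hb hk τ hτ t
    have h1 : 1 ≤ siz F δ b := by
      rw [siz, le_div_iff₀ (by positivity), one_mul]
      exact pow_le_pow_left₀ hδ.le hb 2
    have h2 : chB F δ b = 1 := stp_of_ge (by linarith)
    have h3 : F b ≠ 0 := F_ne_of_siz (δ := δ) (by linarith)
    change HBm g m A F δ κ C (A.φ b t) 1 = _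
    rw [HBm_phi g hFe hm hκi (by linarith), h2, hk, e1, one_mul, one_mul]
    obtain ⟨n, hn⟩ := Ang.unique h3 (Ang_ang (F b)) hτ
    have h4 : (m : ℝ) * (τ + n + t) = m * (τ + t) + ((m * n : ℤ) : ℝ) := by push_cast; ring
    rw [hn, lpm_shift, h4]
    refine NlZ_per (fun x => ?_) 1 (m * (τ + t))
    have hm' : (m : ℝ) ≠ 0 := by positivity
    have h5 : (x + ((m * n : ℤ) : ℝ)) / m - τ = (x / m - τ) + n := by
      push_cast
      field_simp
      ring
    rw [lpm, lpm, h5, A.add_int]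

end Sub

end Vale.Agent.P231.S3U
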