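import Vale.Agent.P231.S3U.Norm
import Vale.Agent.P231.S3U.Sub
import Vale.Agent.P231.S3U.Pol

/-!
# P231, stage 3, (U3)/(U4): the normalisation, the cut-off, one substage on the manifold
-/

set_option maxSynthPendingDepth 3
set_option linter.unusedSectionVars false
set_option linter.unusedVariables false

open Bundle Manifold Set Filter Module MeasureTheory
open scoped ContDiff Manifold Topology ENNReal

namespace Vale.Agent.P231.S3U

noncomputable section

open Vale.Agent.P234 hiding stp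
open Vale.Agent.P231 Vale.Agent.P231.H775 Vale.Agent.P231.Fm Vale.Agent.P231.W
open Vale.Agent.P231.WD3 Vale.Agent.P231.H766 Vale.Agent.P231.S3A

section Abs

variable {B : Type*} {DB : Dif B} {A : CAct DB} {M : Type*} [MetricSpace M] {DM : Dif M}

/-- the variation of the loop of `b` -/
def vr (A : CAct DB) (C : B → M) (b : B) : ℝ≥0∞ := eVariationOn (fun t => C (A.φ b t)) (Icc 0 1)

/-- the loop of `b` is constant -/
def Kc (A : CAct DB) (C : B → M) (b : B) : Prop := ∀ t, C (A.φ b t) = C b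

/-- composition of homotopies which do not increase the variation -/
theorem Hty.step {C C₁ C₂ : B → M} (h : Hty DM A (vr A C) (Kc A C) C C₁)
    (h' : Hty DM A (vr A C₁) (Kc A C₁) C₁ C₂) : Hty DM A (vr A C) (Kc A C) C C₂ := by
  refine h.trans (h'.mono (fun b => h.var_right b) fun b hb t => ?_)
  have hb' : Kc A C (A.φ b t) := fun s => by rw [A.add, hb, hb]
  rw [h.const_right hb, h.const_right hb', hb]

theorem vr_mono {C C₁ : B → M} (h : Hty DM A (vr A C) (Kc A C) C C₁) (b : B) :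
    vr A C₁ b ≤ vr A C b := h.var_right b

end Abs

variable {E : Type*} [NormedAddCommGroup E] [NormedSpace ℝ E] [FiniteDimensional ℝ E]
  {M : Type*} [MetricSpace M] [ChartedSpace E M] [IsManifold 𝓘(ℝ, E) ∞ M]
  [RiemannianBundle (fun x : M => TangentSpace 𝓘(ℝ, E) x)]
  [IsContMDiffRiemannianBundle 𝓘(ℝ, E) ∞ E (fun x : M => TangentSpace 𝓘(ℝ, E) x)]
  {e : ∀ x : M, TangentSpace 𝓘(ℝ, E) x → M}
  [CompactSpace M] [ConnectedSpace M] [IsRiemannianManifold 𝓘(ℝ, E) M]
  {B : Type*} {DB : Dif B} {A : CAct DB} {C : B → M} {D : ℝ}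

theorem vr_eq (F : Facts e) (hD : 0 < D) (hB : InjGE e D) (hpt : Pts DB)
    (hC : DB.Map (dM E M) C) (b : B) :
    vr A C b = ENNReal.ofReal (∫ x in (0 : ℝ)..1, sp E (fun t => C (A.φ b t)) x) :=
  var_eq F hD hB (loop_smooth hpt hC b) zero_le_one

theorem vr_toReal (F : Facts e) (hD : 0 < D) (hB : InjGE e D) (hpt : Pts DB)
    (hC : DB.Map (dM E M) C) (b : B) :
    (vr A C b).toReal = ∫ x in (0 : ℝ)..1, sp E (fun t => C (A.φ b t)) x := by
  rw [vr_eq F hD hB hpt hC, ENNReal.toReal_ofReal]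
  exact intervalIntegral.integral_nonneg zero_le_one fun x _ => sp_nonneg _ x

/-- the regularised speed -/
def wsp (E : Type*) [NormedAddCommGroup E] [NormedSpace ℝ E] {M : Type*} [MetricSpace M]
    [ChartedSpace E M] [RiemannianBundle (fun x : M => TangentSpace 𝓘(ℝ, E) x)]
    {B : Type*} {DB : Dif B} (A : CAct DB) (C : B → M) (ε : ℝ) (b : B) : ℝ :=
  Real.sqrt (qs E A C b + ε ^ 2)

theorem wsp_map (hC : DB.Map (dM E M) C) {ε : ℝ} (hε : 0 < ε) :
    DB.Map (Dif.lin ℝ) (wsp E A C ε) := by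
  have h1 : DB.Map (Dif.lin ℝ) (qs E A C) := qs_map hC
  intro V _ _ _ u x hu
  have h2 : Sm (fun y => qs E A C (u y)) x := h1 hu
  change Sm (fun y => wsp E A C ε (u y)) x
  filter_upwards [h2] with y hy
  refine (hy.add contDiffAt_const).sqrt ?_
  have := qs_nonneg (E := E) (A := A) (C := C) (u y)
  positivity

theorem wsp_pos {ε : ℝ} (hε : 0 < ε) (b : B) : 0 < wsp E A C ε b := by
  have := qs_nonneg (E := E) (A := A) (C := C) b
  exact Real.sqrt_pos.2 (by positivity)

/-- **(U4)** equivariant reparametrisation: afterwards the speed is at most the length plus `ε` -/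
theorem normalise (F : Facts e) (hD : 0 < D) (hB : InjGE e D) (hpt : Pts DB)
    (hC : DB.Map (dM E M) C) {ε : ℝ} (hε : 0 < ε) :
    ∃ C' : B → M, Hty (dM E M) A (vr A C) (Kc A C) C C' ∧
      (∀ b s t, s ≤ t → dist (C' (A.φ b s)) (C' (A.φ b t)) ≤ ((vr A C b).toReal + ε) * (t - s)) ∧
      ∀ b, ∃ ψ : ℝ → ℝ, Continuous ψ ∧ Monotone ψ ∧ (∀ t, ψ (t + 1) = ψ t + 1) ∧
        ∀ t, C' (A.φ b t) = C (A.φ b (ψ t)) := by
  have hwm : DB.Map (Dif.lin ℝ) (wsp E A C ε) := wsp_map hC hε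
  have hwp : ∀ b, 0 < wsp E A C ε b := wsp_pos hε
  obtain ⟨θ, hθs, hθ⟩ := exists_rep (A := A) hpt hwm hwp
  have hper : ∀ b t, θ (A.φ b (t + 1)) = θ (A.φ b t) := fun b t => by
    have : t + 1 = t + ((1 : ℤ) : ℝ) := by simp
    rw [this, A.add_int]
  have hθc : ∀ b, Continuous fun t => θ (A.φ b t) := fun b =>
    (contDiff_orbit (A := A) hpt hθs b).continuous
  have e0 : stp 0 = 0 := stp_of_le (by norm_num)
  have e1 : stp 1 = 1 := stp_of_ge (by norm_num)
  refine ⟨fun b => C (A.φ b (θ b)), ⟨fun b u => C (A.φ b (stp u * θ b)), ?_, ?_, ?_, ?_, ?_⟩,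
    ?_, ?_⟩
  · intro V _ _ _ w x hw
    refine hC (A.at_phi hw.1 ?_)
    have h1 : Sm (fun y => (w y).2) x := hw.2
    have h2 : Sm (fun y => θ (w y).1) x := hθs hw.1
    filter_upwards [h1, h2] with y h3 h4
    exact (stp_contDiff.contDiffAt.comp y h3).mul h4
  · intro b u hu
    simp only
    rw [stp_of_le (by linarith), zero_mul, A.zero]
  · intro b u hu
    simp only
    rw [stp_of_ge (by linarith), one_mul]
  · intro b u
    have h1 : (fun t => C (A.φ (A.φ b t) (stp u * θ (A.φ b t)))) =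
        fun t => C (A.φ b (t + stp u * θ (A.φ b t))) := by
      funext t
      rw [A.add]
    simp only
    rw [h1]
    have h3 := var_reparam (c := fun t => C (A.φ b t)) (phi_per C b)
      (m := fun t => t + stp u * θ (A.φ b t)) (a := 0) ?_ ?_
    · rw [zero_add] at h3
      exact h3
    · intro s _ t _ hst
      have h4 : s + θ (A.φ b s) ≤ t + θ (A.φ b t) := (hθ b).1 hst
      change s + stp u * θ (A.φ b s) ≤ t + stp u * θ (A.φ b t)
      have h5 := stp_nonneg u
      have h6 := stp_le_one u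
      nlinarith
    · rw [hper b 0]
      ring
  · intro b hb u
    exact hb _
  · intro b s t hst
    have hc := loop_smooth (E := E) (A := A) hpt hC b
    have h1 : ∀ t, C (A.φ (A.φ b t) (θ (A.φ b t))) = C (A.φ b (t + θ (A.φ b t))) := fun t => by
      rw [A.add]
    simp only [h1]
    have hmono : s + θ (A.φ b s) ≤ t + θ (A.φ b t) := (hθ b).1 hst
    have h2 := dist_le_int hc hmono
    have hwc : Continuous fun x => wsp E A C ε (A.φ b x) :=
      (contDiff_orbit (A := A) hpt hwm b).continuous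
    have hw1 : ∀ x, sp E (fun t => C (A.φ b t)) x ≤ wsp E A C ε (A.φ b x) := fun x => by
      rw [wsp, qs_phi hpt hC]
      refine Real.le_sqrt_of_sq_le ?_
      have := sq_nonneg ε
      linarith
    have hw2 : ∀ x, wsp E A C ε (A.φ b x) ≤ sp E (fun t => C (A.φ b t)) x + ε := fun x => by
      rw [wsp, qs_phi hpt hC]
      have h0 := sp_nonneg (E := E) (fun t => C (A.φ b t)) x
      refine Real.sqrt_le_iff.2 ⟨by positivity, ?_⟩
      nlinarith
    have h3 : ∫ x in (s + θ (A.φ b s))..(t + θ (A.φ b t)), sp E (fun t => C (A.φ b t)) x ≤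
        ∫ x in (s + θ (A.φ b s))..(t + θ (A.φ b t)), wsp E A C ε (A.φ b x) :=
      intervalIntegral.integral_mono_on hmono ((continuous_sp hc).intervalIntegrable _ _)
        (hwc.intervalIntegrable _ _) fun x _ => hw1 x
    rw [(hθ b).2 s t hst] at h3
    have h4 : avg A (wsp E A C ε) b ≤ (vr A C b).toReal + ε := by
      rw [vr_toReal F hD hB hpt hC]
      have h5 : ∫ x in (0 : ℝ)..1, (sp E (fun t => C (A.φ b t)) x + ε) =
          (∫ x in (0 : ℝ)..1, sp E (fun t => C (A.φ b t)) x) + ε := by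
        rw [intervalIntegral.integral_add ((continuous_sp hc).intervalIntegrable _ _)
          intervalIntegrable_const, intervalIntegral.integral_const]
        simp
      rw [← h5]
      exact intervalIntegral.integral_mono_on zero_le_one (hwc.intervalIntegrable _ _)
        (((continuous_sp hc).add continuous_const).intervalIntegrable _ _) fun x _ => hw2 x
    exact h2.trans (h3.trans (mul_le_mul_of_nonneg_right h4 (by linarith)))
  · intro b
    refine ⟨fun t => t + θ (A.φ b t), continuous_id.add (hθc b), (hθ b).1, fun t => ?_,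
      fun t => ?_⟩
    · simp only
      rw [hper]
      ring
    · simp only
      rw [A.add]

/-- the cut-off by the energy -/
theorem exists_cut (F : Facts e) (hpt : Pts DB) (hC : DB.Map (dM E M) C) {m : ℕ} (hm : 0 < m)
    {r₀ K₁ : ℝ} (hr₀ : 0 ≤ r₀) (hK : 0 ≤ K₁) (h : K₁ ^ 2 < m * r₀ ^ 2) :
    ∃ κ : B → ℝ, DB.Map (Dif.lin ℝ) κ ∧ (∀ b t, κ (A.φ b t) = κ b) ∧
      (∀ b, κ b ∈ Icc (0 : ℝ) 1) ∧
      (∀ b, κ b ≠ 0 → ∀ t x : ℝ, 0 ≤ x → x ≤ 1 / m →
        dist (C (A.φ b t)) (C (A.φ b (t + x))) ≤ r₀) ∧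
      ∀ b, (∀ t, sp E (fun t => C (A.φ b t)) t ≤ K₁) → κ b = 1 := by
  have hm' : (0 : ℝ) < m := by positivity
  have hpos : 0 < m * r₀ ^ 2 - K₁ ^ 2 := by linarith
  have hEm : DB.Map (Dif.lin ℝ) (Eb E A C) := Eb_map hpt hC
  refine ⟨fun b => stp ((m * r₀ ^ 2 - Eb E A C b) / (m * r₀ ^ 2 - K₁ ^ 2)), ?_, ?_, ?_, ?_, ?_⟩
  · intro V _ _ _ u x hu
    have h2 : Sm (fun y => Eb E A C (u y)) x := hEm hu
    change Sm (fun y => stp ((m * r₀ ^ 2 - Eb E A C (u y)) / (m * r₀ ^ 2 - K₁ ^ 2))) x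
    filter_upwards [h2] with y hy
    exact stp_contDiff.contDiffAt.comp y ((contDiffAt_const.sub hy).div_const _)
  · intro b t
    simp only
    rw [Eb_phi hpt hC]
  · intro b
    exact stp_mem _
  · intro b hb t x hx0 hx1
    have h1 : 0 < (m * r₀ ^ 2 - Eb E A C b) / (m * r₀ ^ 2 - K₁ ^ 2) := by
      by_contra hneg
      exact hb (stp_of_le (by linarith [not_lt.1 hneg]))
    have h2 : Eb E A C b < m * r₀ ^ 2 := by
      have := (div_pos_iff_of_pos_right hpos).1 h1
      linarith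
    have h0 : 0 ≤ Eb E A C b := intervalIntegral.integral_nonneg zero_le_one
      fun x _ => sq_nonneg _
    have hx2 : x ≤ 1 := by
      refine hx1.trans ?_
      rw [div_le_one hm']
      exact_mod_cast hm
    have h3 := dist_le_of_Eb (E := E) (A := A) hpt hC b (s := t) (t := t + x) (by linarith)
      (by linarith)
    rw [add_sub_cancel_left] at h3
    have h4 : x * Eb E A C b ≤ r₀ ^ 2 := by
      calc x * Eb E A C b ≤ (1 / m) * Eb E A C b := mul_le_mul_of_nonneg_right hx1 h0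
        _ ≤ (1 / m) * (m * r₀ ^ 2) := mul_le_mul_of_nonneg_left h2.le (by positivity)
        _ = r₀ ^ 2 := by field_simp
    exact le_of_sq_le_sq (h3.trans h4) hr₀
  · intro b hb
    have hc := loop_smooth (E := E) (A := A) hpt hC b
    have h1 : Eb E A C b ≤ K₁ ^ 2 := by
      unfold Eb
      have h2 : ∫ x in (0 : ℝ)..1, sp E (fun t => C (A.φ b t)) x ^ 2 ≤ ∫ x in (0 : ℝ)..1, K₁ ^ 2 :=
        intervalIntegral.integral_mono_on zero_le_one
          (((continuous_sp hc).pow 2).intervalIntegrable _ _) intervalIntegrable_const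
          fun x _ => pow_le_pow_left₀ (sp_nonneg _ x) (hb x) 2
      rw [intervalIntegral.integral_const] at h2
      simpa using h2
    simp only
    refine stp_of_ge ?_
    have h2 : 1 ≤ (m * r₀ ^ 2 - Eb E A C b) / (m * r₀ ^ 2 - K₁ ^ 2) := by
      rw [le_div_iff₀ hpos]
      linarith
    linarith

/-- closeness of a loop and of the loop with origin -/
theorem NC_lpm {m : ℕ} (hm : 0 < m) {b : B} {ρ : ℝ} (τ : ℝ)
    (h : NC e D 1 ρ (fun t => C (A.φ b t))) : NC e D ((m : ℤ) : ℝ) ρ (lpm m A C b τ) := by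
  have hm' : (0 : ℝ) < m := by positivity
  refine h.reparam (β := fun x => x / m - τ) ((continuous_id.div_const _).sub continuous_const)
    (fun x y hxy => sub_le_sub_right (div_le_div_of_nonneg_right hxy hm'.le) _) fun x => ?_
  push_cast
  field_simp
  ring

/-- **one substage** on the manifold -/
theorem subM (F : Facts e) (hD : 0 < D) (hB : InjGE e D) (hpt : Pts DB) {m : ℕ} (hm : 0 < m)
    {K₁ : ℝ} (hK : 0 ≤ K₁) (h : K₁ ^ 2 < m * (D / 2) ^ 2) {ρ : ℝ} (hρ : 0 < ρ) :
    ∃ ρ₁ : ℝ, 0 < ρ₁ ∧ ρ₁ ≤ ρ ∧ ∀ (f : B → ℂ), DB.Map (Dif.lin ℂ) f → Equi A f → ∀ δ : ℝ, 0 < δ →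
      ∀ C : B → M, DB.Map (dM E M) C → ∃ C' : B → M,
        Hty (dM E M) A (vr A C) (Kc A C) C C' ∧
        (∀ b, NC e D 1 ρ₁ (fun t => C (A.φ b t)) → NC e D 1 ρ (fun t => C' (A.φ b t))) ∧
        ∀ b, δ ≤ ‖f b‖ → (∀ t, sp E (fun t => C (A.φ b t)) t ≤ K₁) → ∀ τ, Ang (f b) τ → ∀ t,
          C' (A.φ b t) = NlZ (gG e) (lpm m A C b τ) 1 (m * (τ + t)) := by
  have hm' : (0 : ℝ) < m := by positivity
  obtain ⟨ρ₀, hρ0, hρ1, hmod⟩ := exists_mod (r₁ := 3 * D / 4) F hD hB (by linarith) hρ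
  refine ⟨min ρ₀ (D / 8), lt_min hρ0 (by linarith), (min_le_left _ _).trans hρ1, ?_⟩
  intro f hf hfe δ hδ C hC
  obtain ⟨κ, hκs, hκi, hκ01, hκd, hκ1⟩ := exists_cut (A := A) F hpt hC hm (by linarith) hK h
  have hcell : ∀ b, κ b ≠ 0 → ∀ t x : ℝ, 0 ≤ x → x ≤ 1 / m →
      dist (C (A.φ b t)) (C (A.φ b (t + x))) < D := fun b hb t x h0 h1 =>
    (hκd b hb t x h0 h1).trans_lt (by linarith)
  obtain ⟨C', h1, h2, h3⟩ := substage (geoM F hB) hf hfe hδ hC hm hκs hκi hκ01 hD hcell
  refine ⟨C', h1, fun b hb => ?_, fun b hb hsp τ hτ t => h3 b hb (hκ1 b hsp) τ hτ t⟩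
  rcases h2 b with ⟨k, hk, τ, hτ⟩ | ⟨s, hs, hs0, τ, hτ⟩
  · have h4 := (hb.mono ((min_le_left _ _).trans hρ1)).reparam (flt_cont (m := m) k τ)
      (flt_mono hm hk.1 hk.2 τ) (fun t => flt_add hm k τ t)
    have h5 : (fun t => C' (A.φ b t)) = fun t => C (A.φ b (flt m k τ t)) := funext hτ
    rw [h5]
    exact h4
  · obtain ⟨v, θ, t1, t2, t3, t4⟩ := NC_lpm hm τ hb
    have h4 : NC e D ((m : ℤ) : ℝ) ρ (NlZ (gG e) (lpm m A C b τ) s) := by
      refine NC_NlZ (r₁ := 3 * D / 4) (ρ := min ρ₀ (D / 8))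
        (fun v a b x y l q1 q2 q3 q4 => hmod v a b x y l q1
          (q2.trans_le (min_le_left _ _)) (q3.trans_le (min_le_left _ _)) q4)
        ((min_le_left _ _).trans hρ1) t1 t2 t3 t4 hs fun n => ?_
      by_cases hk : κ b = 0
      · rw [hs0 hk, add_zero, sub_self, mul_zero, abs_zero]
        linarith
      · refine arc_le F hB hD (c := lpm m A C b τ) (v := v) t1 t2 (ρ := min ρ₀ (D / 8))
          (r₀ := D / 2) t4 (by linarith [min_le_right ρ₀ (D / 8)]) (by linarith) hs.1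
          fun s' hs' => ?_
        have h5 := hκd b hk ((n : ℝ) / m - τ) (s' / m) (div_nonneg hs'.1 hm'.le)
          (div_le_div_of_nonneg_right (hs'.2.trans hs.2) hm'.le)
        have h6 : ((n : ℝ) + s') / m - τ = n / m - τ + s' / m := by ring
        rw [lpm, lpm, h6]
        exact h5
    have h7 := h4.reparam (p := 1) (β := fun t => (m : ℝ) * (τ + t))
      (continuous_const.mul (continuous_const.add continuous_id))
      (fun x y hxy => mul_le_mul_of_nonneg_left (by linarith) hm'.le) (fun x => by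
        push_cast
        ring)
    have h8 : (fun t => C' (A.φ b t)) = fun t => NlZ (gG e) (lpm m A C b τ) s (m * (τ + t)) :=
      funext hτ
    rw [h8]
    exact h7

end

end Vale.Agent.P231.S3U
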